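import Vale.Agent.P011UN.Inst
import Vale.Agent.P011UE0.LsAll
import Vale.Agent.P011UE.Kit
import Vale.Agent.P011UL.Defs

/-!
The approximately invariant means for a division algebra over a global field.
-/

open Filter Topology Set Matrix Module TensorProduct
open scoped commutatorElement

namespace Vale.Agent.P011UN

open Vale.Agent.P011 Vale.Agent.P011NC Vale.Agent.P011UE0 Vale.Agent.P011UE1 Vale.Agent.P011UE
open Vale.Agent.P011.H738 (Place)

theorem cont_j {F E Om ι : Type} [NontriviallyNormedField F] [CompleteSpace F] [NormedRing E]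
    [StarRing E] [NormedAlgebra F E] [Field Om] [Algebra F Om] {n : ℕ} {L : Mdl F E Om n}
    [Fintype ι] [DecidableEq ι] {π : E →ₐ[F] Matrix ι ι F} (h : Pj L π)
    (j : SpecialLinearGroup ι F →* unitary E) (πs : ∀ s, π (j s) = s.1) : Continuous j := by
  have := L.fd
  have h := LinearMap.isClosedEmbedding_of_injective
    (f := π.toLinearMap.prod (π.toLinearMap.comp L.st)) (LinearMap.ker_eq_bot'.2 fun x hx =>
      h.ext ((congrArg Prod.fst hx).trans (map_zero π).symm)
        ((congrArg Prod.snd hx).trans (by simp)))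
  refine continuous_induced_rng.2 (h.isInducing.continuous_iff.2 ?_)
  have e : (π.toLinearMap.prod (π.toLinearMap.comp L.st)) ∘ (Subtype.val ∘ j) =
      fun s => (s.1, s⁻¹.1) := funext fun s =>
    Prod.ext (πs s) ((congrArg (fun g : unitary E => π g) (map_inv j s).symm).trans (πs _))
  rw [e]
  fun_prop

section

variable {k A Ω : Type} [Field k] [Ring A] [StarRing A] [Algebra k A] [Field Ω]
  [Algebra k Ω] {n : ℕ} {P : Type} {F E Om : P → Type} [∀ v, NontriviallyNormedField (F v)]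
  [∀ v, NormedRing (E v)] [∀ v, StarRing (E v)] [∀ v, NormedAlgebra (F v) (E v)]
  [∀ v, Field (Om v)] [∀ v, Algebra (F v) (Om v)] {H : Adl k A Ω n F E Om}
  {D : Type} [DivisionRing D] [Algebra k D] {v : P} [∀ v, ProperSpace (F v)]

theorem ex_fac {p : A →ₐ[k] D} (h : Pj H.M p) {π : E v →ₐ[F v] Matrix (Fin n) (Fin n) (F v)}
    (h' : Pj (H.L v) π) (f : D →+* Matrix (Fin n) (Fin n) (F v)) (hf : ∀ a, π (H.j v a) = f (p a))
    (hd : ∀ a, ((H.L v).f (H.j v a)).det = algebraMap (F v) (Om v) (f (p a)).det) :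
    ∃ Z : Fac H D v (Fin n), Z.f = f ∧ ∀ a, Z.p a = p a := by
  have := (H.L v).fd
  choose s hs using h.surj
  have k0 : ∀ x a, p a = x → H.M.om * s x = H.M.om * a := fun x a e =>
    sub_eq_zero.1 ((mul_sub _ _ _).symm.trans ((h.ker _).1 (by rw [map_sub, hs, e, sub_self])))
  have k1 : H.M.om * H.M.om = H.M.om := by
    have := h.om
    rwa [H.M.som_eq, mul_sub, mul_one, sub_eq_zero, eq_comm] at this
  let u := MulEquiv.ofBijective (Pj.u π) ⟨h'.u_inj, h'.u_surj⟩
  let j := u.symm.toMonoidHom.comp (SpecialLinearGroup.toGL (n := Fin n) (R := F v))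
  have hj : ∀ s, Pj.u π (j s) = SpecialLinearGroup.toGL s := fun s => u.apply_symm_apply _
  have cπ : Continuous π := π.toLinearMap.continuous_of_finiteDimensional
  have dj : DenseRange (H.j v) := Metric.denseRange_iff.2 fun x r hr => by
    classical
    obtain ⟨a, ha⟩ := H.wa {v} (Function.update 0 v x) r hr
    have := ha v (Finset.mem_singleton_self v)
    rw [Function.update_self, ← dist_eq_norm, dist_comm] at this
    exact ⟨a, this⟩
  have dt : ∀ x, ((H.L v).f x).det = algebraMap (F v) (Om v) (π x).det := fun x =>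
    dj.induction_on x ((H.L v).isClosed_det continuous_id cπ.matrix_det) fun a => by rw [hd, hf]
  exact ⟨{
    p := p
    e := { toFun := fun x => H.M.om * s x
           map_mul' := fun x y => by
             rw [k0 _ (s x * s y) (by rw [map_mul, hs, hs]), mul_assoc, ← mul_assoc (s x),
               ← H.M.om_comm, mul_assoc, ← mul_assoc H.M.om H.M.om, k1]
           map_zero' := by rw [k0 _ 0 (map_zero p), mul_zero]
           map_add' := fun x y => by rw [k0 _ (s x + s y) (by rw [map_add, hs, hs]), mul_add] }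
    ep := fun a => k0 _ a rfl
    pe := fun x => (map_mul p _ _).trans (by rw [h.one, hs, one_mul])
    π := π
    cπ := cπ
    sπ := h'.surj
    kπ := fun x => (h'.ker x).1
    f := f
    πj := hf
    j := j
    cj := cont_j h' j fun s => congrArg Units.val (hj s)
    πs := fun s => congrArg Units.val (hj s)
    gp := fun s => h'.mem_Gp (by rw [hj]; exact det_Tv _ s.2)
    su := fun g hg => ⟨⟨π g, (algebraMap (F v) (Om v)).injective (by
      rw [← dt, map_one]; exact hg)⟩, h'.u_inj ((hj _).trans (Units.ext rfl))⟩ }, rfl, fun _ => rfl⟩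

omit [Algebra k D] [∀ v, ProperSpace (F v)] in
theorem Fac.su_le (Z : Fac H D v (Fin n)) : (H.L v).SU ≤ Gp (E v) := fun g hg =>
  (Z.su g hg).elim fun s e => e ▸ Z.gp s

omit [Algebra k D] [∀ v, ProperSpace (F v)] in
theorem Fac.nil (Z : Fac H D v (Fin n)) : ∃ x : E v, Nil x ∧ x ≠ 0 := by
  by_contra hx
  push Not at hx
  have h : Gp (E v) ≤ ⊥ := Gp_le fun x h => Subtype.ext (by simp [un_val, hx x h])
  have : Nontrivial (Fin n) := Fin.nontrivial_iff_two_le.2 H.le
  obtain ⟨i, j, e⟩ := exists_pair_ne (Fin n)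
  have a : ∀ s : SpecialLinearGroup (Fin n) (F v), s.1 = 1 := fun s => by
    rw [← Z.πs, Subgroup.mem_bot.1 (h (Z.gp _)), OneMemClass.coe_one, map_one]
  replace a := a ⟨transvection i j 1, det_transvection_of_ne i j e 1⟩
  simpa [transvection, e] using congrFun (congrFun a i) j

end

variable {k D : Type} [Field k] [DivisionRing D] [Algebra k D] [FiniteDimensional k D] {n : ℕ}
  {N : D →* k}

/-- The extension of a splitting. -/
noncomputable def lf {L : Type} [Field L] [Algebra k L] (f : D →ₐ[k] Matrix (Fin n) (Fin n) L) :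
    L ⊗[k] D →ₐ[L] Matrix (Fin n) (Fin n) L :=
  Algebra.TensorProduct.lift (Algebra.ofId L _) f fun _ _ => Algebra.commutes _ _

omit [FiniteDimensional k D] in
theorem lf_tmul {L : Type} [Field L] [Algebra k L] (f : D →ₐ[k] Matrix (Fin n) (Fin n) L) (c : L)
    (y : D) : lf f (c ⊗ₜ y) = c • f y := (Algebra.smul_def c (f y)).symm

theorem lf_bij (h : Dv k D n N) {L : Type} [Field L] [Algebra k L]
    (f : D →ₐ[k] Matrix (Fin n) (Fin n) L) : Function.Bijective (lf f) := by
  have := h.central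
  have : IsSimpleRing (L ⊗[k] D) := P011.H268.isSimpleRing_baseChange
  have : Nontrivial (Fin n) := Fin.nontrivial_iff_two_le.2 h.le
  have i := RingHom.injective (lf f).toRingHom
  exact ⟨i, (LinearMap.injective_iff_surjective_of_finrank_eq_finrank (f := (lf f).toLinearMap)
    (by rw [finrank_baseChange, h.rank]; simp [finrank_matrix, sq])).1 i⟩

theorem ex_mdl (h : Dv k D n N) : ∃ (A : Type) (_ : Ring A) (_ : StarRing A) (_ : Algebra k A)
    (M : Mdl k A (AlgebraicClosure k) n) (p : A →ₐ[k] D), Pj M p ∧ Ani M ∧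
      ∀ x, (M.f x).det = algebraMap k _ (N (p x)) := by
  obtain ⟨f, hf⟩ := h.split
  let _ : StarRing (D × Dᵐᵒᵖ) :=
    { star := fun x => (x.2.unop, .op x.1)
      star_involutive := fun _ => rfl
      star_mul := fun _ _ => rfl
      star_add := fun _ _ => rfl }
  refine ⟨D × Dᵐᵒᵖ, inferInstance, inferInstance, inferInstance,
    { f := f.comp (AlgHom.fst k _ _)
      om := (1, 0)
      w := 1
      star_smul := fun _ _ => rfl
      span := Submodule.eq_top_iff'.2 fun X => ?_
      fd := inferInstance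
      rank := by rw [finrank_prod, ← (MulOpposite.opLinearEquiv k).finrank_eq, h.rank, two_mul]
      om_comm := fun x => Prod.ext (by simp) (by simp)
      om_add := Prod.ext (add_zero _) (zero_add _)
      del := ⟨(1, -1), Prod.ext (by change (1 - 0 : D) * 1 = 1; simp)
        (by change (0 - 1 : Dᵐᵒᵖ) * -1 = 1; simp)⟩
      f_om := by simp }, AlgHom.fst k _ _, ⟨Prod.fst_surjective, fun x => ?_,
      Prod.ext (mul_zero _) (zero_mul _)⟩, fun x e => ?_, fun x => (hf _).symm⟩
  · obtain ⟨y, rfl⟩ := (lf_bij h f).2 X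
    induction y with
    | zero => simp
    | tmul c y =>
      rw [lf_tmul]
      exact Submodule.smul_mem _ _ (Submodule.subset_span ⟨(y, 0), rfl⟩)
    | add x y a b => rw [map_add]; exact add_mem a b
  · simp [Prod.ext_iff]
  · change f x.1 = 0
    by_contra c
    have u : IsUnit x.1 := isUnit_iff_ne_zero.2 fun e' => c (by rw [e', map_zero])
    exact ((isUnit_iff_isUnit_det _).1 (u.map f)).ne_zero e

theorem ne_gf (h : Dv k D n N) {P : Type} {a : P → AbsoluteValue k ℝ} {G : GF k a} (hG : Cn G)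
    (T : Finset P) (hT : ∀ w ∉ T, Nonempty (D →ₐ[k] Matrix (Fin n) (Fin n) (G.Fv w))) (v : P)
    (f : D →ₐ[k] Matrix (Fin n) (Fin n) (G.Fv v)) {Q : Type} [Group Q] [Finite Q] {ψ : Dˣ →* Q}
    (hψ : Function.Surjective ψ) {R : Subgroup Q} (hR : ⁅R, R⁆ = R) {s : D}
    (hs : f s ∈ H210.SR (Fin n) (G.Fv v)) {κ : D → Q}
    (hκ : ∀ (g : Dˣ) (y : D), κ (g * y * (g⁻¹ : Dˣ)) = ψ g * κ y * (ψ g)⁻¹)
    {HS : Set (Equiv.Perm (P011UL.XS s))} {Tk : k → Equiv.Perm (P011UL.XS s)}
    (h1 : ∀ h ∈ HS, P011UL.Mob k s h) (h2 : ∀ b x, (Tk b x).1 = x.1 + algebraMap k D b) :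
    H966.NE (fun x : P011UL.XS s => κ x.1) R HS Tk := by
  classical
  obtain ⟨A, _, _, _, M, p, hp, hd, hN⟩ := ex_mdl h
  have := h.central
  have h0 : 0 < n := two_pos.trans_le h.le
  have : Nontrivial (Fin n) := Fin.nontrivial_iff_two_le.2 h.le
  have : ∀ v, ContinuousStar (G.E M v) := fun v => ((adl G M h0 h.le hd).L v).contStar
  have k1 : ∀ w (g : D →ₐ[k] Matrix (Fin n) (Fin n) (G.Fv w)),
      ∃ Z : Fac (adl G M h0 h.le hd) D w (Fin n), Z.f = g ∧ ∀ a, Z.p a = p a := fun w g => by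
    have l := hp.loc (G.Fv w) (Om _ G w) (psi _ G w)
    refine ex_fac (H := adl G M h0 h.le hd) hp (π := (lf g).comp (piE M p _))
      ⟨(lf_bij h g).2.comp l.surj, fun x => ((map_eq_zero_iff _ (lf_bij h g).1).trans (l.ker x)),
        l.om⟩ g (fun a => (lf_tmul g 1 (p a)).trans (one_smul _ _))
      fun a => (M.det_locM _ _ _ a).trans ?_
    · rw [hN, AlgHom.commutes]
      exact (IsScalarTower.algebraMap_apply k (G.Fv w) _ _).trans
        (congrArg _ (h.nrd _ _ g).symm)
  obtain ⟨Z, z1, z2⟩ := k1 v f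
  have cm : ∀ a ∈ Algebra.adjoin k {s}, Commute a s := fun a ha =>
    (Algebra.commute_of_mem_adjoin_self ha).symm
  refine Z.ne ((ψ.comp (Pj.u p)).comp M.SU.subtype) R (fun S a b ε hε ρ hρ => ?_) (σ := s)
    (by rw [z1]; exact hs) κ (fun g y => by rw [z2, z2]; exact hκ (Pj.u p g) y) Subtype.val
    (fun y hy => ⟨⟨y, hy⟩, rfl⟩) (fun g hg => ?_) fun b => ⟨_, Algebra.commutes b, h2 b⟩
  · obtain ⟨g, g1, g2, g3⟩ := (adl G M h0 h.le hd).full (ls_all hG hp _ _ hd) (T := T)
      (fun w hw => (hT w hw).elim fun g => (k1 w g).elim fun Z _ => Z.su_le) Z.nil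
      (ψ.comp (Pj.u p)) (hψ.comp hp.u_surj) hR.ge a b hε hρ
    exact ⟨g, g2, g1, g3⟩
  · obtain ⟨a, ha, b, hb, c, hc, d, hd, e⟩ := h1 g hg
    exact ⟨a, b, c, d, cm a ha, cm b hb, cm c hc, cm d hd, e⟩

/-- **The analytic input of the line theorem.** -/
theorem nem (hR : RAM) : P011UL.NEM := by
  intro k D _ _ _ _ n N h Q _ _ ψ hψ _ R _ hR'
  classical
  obtain ⟨r1, r2⟩ := hR k D n N h
  have k1 : ∀ v : Place k, v ∉ r1.toFinset → Nonempty (D →ₐ[k] Matrix (Fin n) (Fin n) v.comp) :=
    fun v hv => (not_not.1 fun e => hv (r1.mem_toFinset.2 e) : Sp D n v).elim fun f hf =>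
      ⟨⟨f, hf⟩⟩
  obtain ⟨v, hv⟩ := Infinite.exists_notMem_finset r1.toFinset
  obtain ⟨f⟩ := k1 v hv
  refine ⟨v, f, fun s hs κ hκ HS Tk h1 h2 => ?_⟩
  rcases h.glob with _ | ⟨F, _, _, _, _⟩
  · refine ne_gf h cn_NF (r1.toFinset.map .inl ∪ (gfNF k).arch) ?_ (.inl v) f hψ hR' hs hκ h1 h2
    rintro (w | w) hw
    · exact k1 w fun e => hw (Finset.mem_union_left _ (Finset.mem_map_of_mem _ e))
    · exact (hw (Finset.mem_union_right _ (Finset.mem_map_of_mem _ (Finset.mem_univ w)))).elim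
  · have := H271.GFF.mk' F k
    exact ne_gf h cn_FF r1.toFinset k1 v f hψ hR' hs hκ h1 h2

end Vale.Agent.P011UN
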