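import Vale.Agent.P011UN.Nem

/-!
Noncentral normal subgroups of `SL_1(D)` have finite index.
-/

open Filter Topology Set Matrix Module TensorProduct

namespace Vale.Agent.P011UN

open Vale.Agent.P011 Vale.Agent.P011NC Vale.Agent.P011UE0 Vale.Agent.P011UE1 Vale.Agent.P011UE
open Vale.Agent.P011.H738 (Place)

section

variable {k A Ω : Type} [Field k] [Ring A] [StarRing A] [Algebra k A] [Field Ω]
  [Algebra k Ω] {n : ℕ} {P : Type} {F E Om : P → Type} [∀ v, NontriviallyNormedField (F v)]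
  [∀ v, NormedRing (E v)] [∀ v, StarRing (E v)] [∀ v, NormedAlgebra (F v) (E v)]
  [∀ v, Field (Om v)] [∀ v, Algebra (F v) (Om v)] (H : Adl k A Ω n F E Om)
  [∀ v, ContinuousStar (E v)] [∀ v, ProperSpace (F v)] [DecidableEq P]

theorem comm_of_center {v : P} (hx : ∃ x : E v, Nil x ∧ x ≠ 0) {z : H.M.SU}
    (hz : z ∈ Subgroup.center H.M.SU) (a : A) : z.1.1 * a = a * z.1.1 := by
  have h1 : ∀ t ∈ H.clq v, t * H.q v z = H.q v z * t := fun t ht => by
    refine closure_minimal (t := {t | t * H.q v z = H.q v z * t}) ?_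
      (isClosed_eq (by fun_prop) (by fun_prop)) ht
    rintro _ ⟨a, rfl⟩
    rw [Set.mem_ofPred_eq, ← map_mul, Subgroup.mem_center_iff.1 hz a, map_mul]
  refine H.j_inj v ?_
  rw [map_mul, map_mul]
  refine (H.L v).central_two H.le hx (C := ‖(H.q v z : E v)‖) (fun t ht => ?_) _
  change ‖(t : E v) * H.q v z * _‖ ≤ _
  rw [← Submonoid.coe_mul, h1 t (H.Gp_le_clq v ht), Submonoid.coe_mul, mul_assoc, t.2.2, mul_one]

end

variable {k D : Type} [Field k] [DivisionRing D] [Algebra k D] [FiniteDimensional k D] {n : ℕ}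
  {N : D →* k}

theorem fac_gf (h : Dv k D n N) {P : Type} {a : P → AbsoluteValue k ℝ} (G : GF k a) {A : Type}
    [Ring A] [StarRing A] [Algebra k A] {M : Mdl k A (AlgebraicClosure k) n} {p : A →ₐ[k] D}
    (hp : Pj M p) (hd : Ani M) (hN : ∀ x, (M.f x).det = algebraMap k _ (N (p x))) (h0 : 0 < n)
    (w : P) (g : D →ₐ[k] Matrix (Fin n) (Fin n) (G.Fv w)) :
    ∃ Z : Fac (adl G M h0 h.le hd) D w (Fin n), Z.f = g ∧ ∀ a, Z.p a = p a := by
  have l := hp.loc (G.Fv w) (Om _ G w) (psi _ G w)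
  refine ex_fac (H := adl G M h0 h.le hd) hp (π := (lf g).comp (piE M p _))
    ⟨(lf_bij h g).2.comp l.surj, fun x => ((map_eq_zero_iff _ (lf_bij h g).1).trans (l.ker x)),
      l.om⟩ g (fun a => (lf_tmul g 1 (p a)).trans (one_smul _ _))
    fun a => (M.det_locM _ _ _ a).trans ?_
  rw [hN, AlgHom.commutes]
  exact (IsScalarTower.algebraMap_apply k (G.Fv w) _ _).trans (congrArg _ (h.nrd _ _ g).symm)

theorem nst_gf (h : Dv k D n N) {P : Type} {a : P → AbsoluteValue k ℝ} (G : GF k a)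
    (T : Finset P) (hT : ∀ w ∉ T, Nonempty (D →ₐ[k] Matrix (Fin n) (Fin n) (G.Fv w))) {v : P}
    (hv : v ∉ T) {H : Subgroup Dˣ} (hH : NN N H) : H.relIndex (G1 N) ≠ 0 := by
  classical
  obtain ⟨A, _, _, _, M, p, hp, hd, hN⟩ := ex_mdl h
  have h0 : 0 < n := two_pos.trans_le h.le
  have : ∀ v, ContinuousStar (G.E M v) := fun v => ((adl G M h0 h.le hd).L v).contStar
  have k1 : ∀ g : unitary A, g ∈ M.SU ↔ Pj.u p g ∈ G1 N := fun g => by
    rw [M.mem_SU, hN, mem_G1, map_eq_one_iff _ (algebraMap k _).injective, Pj.u_val]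
  let φ : (adl G M h0 h.le hd).M.SU →* Dˣ := (Pj.u p).comp M.SU.subtype
  have k2 : φ.range = G1 N := le_antisymm (by rintro _ ⟨g, rfl⟩; exact (k1 g).1 g.2) fun x hx => by
    obtain ⟨g, rfl⟩ := hp.u_surj x
    exact ⟨⟨g, (k1 g).2 hx⟩, rfl⟩
  have : (H.comap φ).Normal := ⟨fun x hx g => by
    rw [Subgroup.mem_comap, map_mul, map_mul, map_inv]
    exact hH.conj _ ((k1 g).1 g.2) _ hx⟩
  rw [← k2, ← Subgroup.index_comap]
  refine (adl G M h0 h.le hd).index_ne_zero (T := T) (fun w hw => (hT w hw).elim fun g =>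
    (fac_gf h G hp hd hN h0 w g).elim fun Z _ => Z.su_le) _ fun c => ?_
  obtain ⟨x, hx, y, e⟩ := hH.nc
  obtain ⟨g, rfl⟩ := k2.ge (hH.le hx)
  obtain ⟨y, rfl⟩ := hp.surj y
  obtain ⟨f⟩ := hT v hv
  obtain ⟨Z, -⟩ := fac_gf h G hp hd hN h0 v f
  have := congrArg p (comm_of_center (adl G M h0 h.le hd) Z.nil (c hx) y)
  rw [map_mul, map_mul] at this
  exact e this

/-- **Noncentral normal subgroups have finite index.** -/
theorem nst (hR : RAM) : NST := by
  intro k D _ _ _ _ n N h H hH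
  classical
  obtain ⟨r1, r2⟩ := hR k D n N h
  have k1 : ∀ v : Place k, v ∉ r1.toFinset → Nonempty (D →ₐ[k] Matrix (Fin n) (Fin n) v.comp) :=
    fun v hv => (not_not.1 fun e => hv (r1.mem_toFinset.2 e) : Sp D n v).elim fun f hf =>
      ⟨⟨f, hf⟩⟩
  obtain ⟨v, hv⟩ := Infinite.exists_notMem_finset r1.toFinset
  rcases h.glob with _ | ⟨F, _, _, _, _⟩
  · refine nst_gf h (gfNF k) (r1.toFinset.map .inl ∪ (gfNF k).arch) ?_ (v := .inl v)
      (by simpa [gfNF] using hv) hH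
    rintro (w | w) hw
    · exact k1 w fun e => hw (Finset.mem_union_left _ (Finset.mem_map_of_mem _ e))
    · exact (hw (Finset.mem_union_right _ (Finset.mem_map_of_mem _ (Finset.mem_univ w)))).elim
  · have := H271.GFF.mk' F k
    exact nst_gf h (gfFF k) r1.toFinset k1 hv hH

end Vale.Agent.P011UN
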