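import Vale.Agent.P011UN.Opn
import Vale.Agent.P011UW8.Fin

/-!
The open subgroup of the normal subgroup theorem.
-/

open Matrix Filter Topology Polynomial
open scoped Matrix.Norms.Operator

namespace Vale.Agent.P011UN

open Vale.Agent.P011ND Vale.Agent.P011UT4

theorem add_cont {K n : Type} [NontriviallyNormedField K] [CompleteSpace K] [Fintype n]
    [DecidableEq n] {x : K → (Matrix n n K)ˣ} {Q : Matrix n n K[X]}
    (x1 : ∀ u, (x u).1 = Q.map (eval u)) (x2 : ∀ u u', x (u + u') = x u * x u') :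
    x 0 = 1 ∧ Continuous x := by
  have z : x 0 = 1 := left_eq_mul.1 ((congrArg x (add_zero 0).symm).trans (x2 0 0))
  have cv : Continuous fun u => (x u).1 := by
    simp only [x1]
    exact continuous_iff_continuousAt.2 fun u => (poly_deriv _ u).hasDerivAt.continuousAt
  exact ⟨z, Units.continuous_iff.2 ⟨cv, (cv.comp continuous_neg).congr fun u =>
    congrArg Units.val (eq_inv_of_mul_eq_one_left (by rw [← x2, neg_add_cancel, z]))⟩⟩

theorem add_deriv {K n : Type} [NontriviallyNormedField K] [CompleteSpace K] [CharZero K]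
    [Fintype n] [DecidableEq n] {x : K → (Matrix n n K)ˣ} {Q : Matrix n n K[X]}
    (x1 : ∀ u, (x u).1 = Q.map (eval u)) (x2 : ∀ u u', x (u + u') = x u * x u')
    (h : (Q.map fun q => q.derivative.eval 0) = 0) (u : K) : x u = 1 := by
  have k : ∀ u, (Q.map fun q => q.derivative.eval u) = 0 := fun u => by
    have a := ((poly_deriv Q 0).hasDerivAt.const_mul (x u).1)
    have b := (poly_deriv Q (u + 0)).hasDerivAt.comp_const_add u 0
    simp only [← x1, x2, Units.val_mul, add_zero] at a b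
    rw [b.unique a, h, mul_zero]
  rw [← (add_cont x1 x2).1]
  ext i j
  have : (Q i j).derivative = 0 := Polynomial.funext fun u => by
    simpa using congrFun (congrFun (k u) i) j
  rw [x1, x1, map_apply, map_apply, eq_C_of_derivative_eq_zero this, eval_C, eval_C]

variable {k n ι Γ : Type} [Field k] [Fintype n] [DecidableEq n] [Fintype ι] [DecidableEq ι]
  [Group Γ] {E : ι → Type} [∀ i, NontriviallyNormedField (E i)] [∀ i, ProperSpace (E i)]
  [∀ i, Algebra k (E i)] {O : Subring k} {v : ι} {M : n → Matrix n n k} {r : Γ →* Matrix n n k}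
  {H : Subgroup (Matrix n n (E v))ˣ} {x0 : Γ}

variable (M H) in
/-- The subgroups which are open and contain `H`. -/
def Good (S : Subgroup (GG E n)) : Prop :=
  (∀ᶠ g in 𝓝 1, g ∈ St E (dt M) → g ∈ S) ∧ ∀ u ∈ H, Pi.mulSingle v u ∈ S

variable (M H) in
/-- The open subgroup. -/
noncomputable def Mm : Subgroup (GG E n) := St E (dt M) ⊓ sInf {S | Good M H S}

omit [Fintype ι] [∀ i, ProperSpace (E i)] in
theorem single_St {i : ι} {u : (Matrix n n (E i))ˣ}
    (hu : ((dt M).map (algebraMap k (E i))).Stab u.1) : Pi.mulSingle i u ∈ St E (dt M) := fun j => by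
  rcases eq_or_ne j i with rfl | e
  · simpa using hu
  · simpa [e] using Dt.Stab.one

variable (h : An E O v M r H x0)
include h

omit [DecidableEq ι] in
theorem top_spn {N : Subgroup Γ} (h0 : ∃ n ∈ N, r n ≠ 1) :
    Submodule.span k (r '' (⊤ : Subgroup Γ)) = ⊤ :=
  h.spn ⊤ inferInstance (h0.imp fun _ e => ⟨trivial, e.2⟩)

theorem single_H {u : (Matrix n n (E v))ˣ} (hu : u ∈ H) : Pi.mulSingle v u ∈ Mm M H :=
  ⟨single_St (h.hst u hu), Subgroup.mem_sInf.2 fun _ hS => hS.2 u hu⟩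

theorem Mm_conj (γ : Γ) : ∀ m ∈ Mm M H, pp E r γ * m * (pp E r γ)⁻¹ ∈ Mm M H := fun m hm => by
  have a : pp E r γ ∈ St E (dt M) := fun i => (h.stab γ).map _
  refine Subgroup.mem_inf.2 ⟨mul_mem (mul_mem a hm.1) (inv_mem a), Subgroup.mem_sInf.2 fun S hS =>
    Subgroup.mem_sInf.1 hm.2 (S.comap (MulAut.conj (pp E r γ)).toMonoidHom) ⟨?_, fun u hu => ?_⟩⟩
  · refine ((Continuous.tendsto' (f := fun g => pp E r γ * g * (pp E r γ)⁻¹) (by fun_prop) 1 1
      (by simp)).eventually hS.1).mono fun g hg hg' => hg (mul_mem (mul_mem a hg') (inv_mem a))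
  · change pp E r γ * _ * (pp E r γ)⁻¹ ∈ S
    rw [conj_single]
    exact hS.2 _ (mul_mem (mul_mem (h.rat γ) hu) (inv_mem (h.rat γ)))

theorem path {d : k[X]} {P : Matrix n n k[X]} (hc : Crv r d P) {i : ι} {I : Set (E i)}
    (hI : IsPreconnected I) (h0 : 0 ∈ I) (hd : ∀ t ∈ I, aeval t d ≠ 0) {t : E i} (ht : t ∈ I) :
    Pi.mulSingle i (toU (cr (E i) d P t)) ∈ Mm M H := by
  let c : E i → GG E n := fun t => Pi.mulSingle i (toU (cr (E i) d P t))
  have a : ∀ t ∈ I, c t ∈ St E (dt M) := fun t ht => single_St (by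
    rw [toU_val (cr_unit h hc (hd t ht))]
    exact cr_stab (h.pls.dense_at i) hc h.stab (hd t ht))
  refine ⟨a t ht, Subgroup.mem_sInf.2 fun S hS => ?_⟩
  have b := hI.induction₂ (fun s t => (c s)⁻¹ * c t ∈ S) (fun s hs => ?_)
    (fun _ _ _ _ _ _ a b => by simpa [mul_assoc] using mul_mem a b)
    (fun _ _ _ _ a => by simpa using inv_mem a) h0 ht
  · rwa [show c 0 = 1 by
      simp only [c, (cr_zero hc).2, show toU (1 : Matrix n n (E i)) = 1 from
        Units.ext (toU_val isUnit_one), Pi.mulSingle_one], inv_one, one_mul] at b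
  · have c1 : Tendsto (fun t => (c s)⁻¹ * c t) (𝓝 s) (𝓝 1) := by
      rw [← inv_mul_cancel (c s)]
      exact ((continuous_mulSingle (A := fun i => (Matrix n n (E i))ˣ) i).continuousAt.comp
        (cru_cont h hc (hd s hs))).tendsto.const_mul (c s)⁻¹
    filter_upwards [mem_nhdsWithin_of_mem_nhds (c1.eventually hS.1), self_mem_nhdsWithin]
      with t a1 a2 using a1 (mul_mem (inv_mem (a s hs)) (a t a2))

theorem good_of {S : Subgroup (GG E n)} (ho : ∀ᶠ g in 𝓝 1, g ∈ St E (dt M) → g ∈ S) {A : Type}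
    {x : A → E v → (Matrix n n (E v))ˣ} {Q : A → Matrix n n (E v)[X]} {t : A → (Matrix n n (E v))ˣ}
    {l : A → E v} (x1 : ∀ a u, (x a u).1 = (Q a).map (eval u))
    (x2 : ∀ a u u', x a (u + u') = x a u * x a u')
    (x3 : H = Subgroup.closure (⋃ a, Set.range (x a)))
    (x4 : ∀ a, ‖l a‖ < 1 ∧ ∀ u, t a * x a u * (t a)⁻¹ = x a (l a * u))
    (ht : ∀ a, ∀ m ∈ S, (Pi.mulSingle v (t a))⁻¹ * m * Pi.mulSingle v (t a) ∈ S) : Good M H S := by
  refine ⟨ho, fun u hu => ?_⟩
  rw [x3] at hu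
  refine (Subgroup.closure_le (S.comap
    (MonoidHom.mulSingle (fun i => (Matrix n n (E i))ˣ) v))).2 ?_ hu
  intro u hu
  obtain ⟨a, u, rfl⟩ := Set.mem_iUnion.1 hu
  obtain ⟨z, cx⟩ := add_cont (x1 a) (x2 a)
  have c1 := (((continuous_mulSingle (A := fun i => (Matrix n n (E i))ˣ) v).comp cx).tendsto' 0 1
    (by simp [z])).comp (by
      simpa using (tendsto_pow_atTop_nhds_zero_of_norm_lt_one (x4 a).1).mul_const u)
  obtain ⟨j, hj⟩ := (c1.eventually ho).exists
  replace hj := hj (single_St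
    (h.hst _ (x3 ▸ Subgroup.subset_closure (Set.mem_iUnion.2 ⟨a, _, rfl⟩))))
  change (Pi.mulSingle v (x a (l a ^ j * u)) : GG E n) ∈ _ at hj
  induction j with
  | zero => rwa [pow_zero, one_mul] at hj
  | succ j ih =>
    refine ih ?_
    rw [pow_succ', mul_assoc, ← (x4 a).2] at hj
    simpa [mul_assoc, Pi.mulSingle_mul, Pi.mulSingle_inv] using ht a _ hj

variable [CharZero k] {N : Subgroup Γ} (h0 : ∃ n ∈ N, r n ≠ 1)
include h0

omit [DecidableEq ι] in
theorem tan_H {X : Matrix n n (E v)} (hX : ((dt M).map (algebraMap k (E v))).Lie X) :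
    X ∈ Tan (E v) (H.toSubmonoid.map (Units.coeHom _)) := by
  obtain ⟨A, -, x, Q, t, l, x1, x2, ⟨a, u, ne⟩, x3, -⟩ := h.gen
  have := charZero_of_injective_algebraMap (algebraMap k (E v)).injective
  have m : ∀ u, x a u ∈ H := fun u => x3 ▸ Subgroup.subset_closure (Set.mem_iUnion.2 ⟨a, _, rfl⟩)
  have z : (Q a).map (eval 0) = 1 := by rw [← x1, (add_cont (x1 a) (x2 a)).1, Units.val_one]
  obtain ⟨y, hy⟩ := lie_mem h.der (LinearMap.range (adl _)) (fun y => ⟨y, rfl⟩)
    (lie_of_deriv (poly_deriv (Q a) 0) z (.of_forall fun u => x1 a u ▸ h.hst _ (m u)))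
  refine irr h.stab h.der (top_spn h h0) _ (fun γ _ Z hZ => Tan.conj
    (by rw [← map_mul, Mdl.rr, map_one]) ?_ hZ) (y := y)
    (hy ▸ ⟨_, poly_deriv (Q a) 0, z, .of_forall fun u => ⟨_, m u, x1 a u⟩⟩)
    (fun e => ne (add_deriv (x1 a) (x2 a) (by rw [← hy, e, map_zero]) u)) hX
  rintro _ ⟨s, hs, rfl⟩
  exact ⟨_, H.mul_mem (H.mul_mem (h.rat γ) hs) (H.inv_mem (h.rat γ)), by
    simp only [Units.coeHom_apply, Units.val_mul, pp_val, pp_inv]⟩

theorem Mm_H : ∀ g ∈ Mm M H, g v ∈ H := fun g hg => by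
  refine Subgroup.mem_sInf.1 hg.2 (H.comap (Pi.evalMonoidHom (fun i => (Matrix n n (E i))ˣ) v))
    ⟨?_, fun u hu => by simpa using hu⟩
  have a := ((dt M).map (algebraMap k (E v))).open_of_tan
    (S := H.toSubmonoid.map (Units.coeHom _)) (by
      rintro _ ⟨u, hu, rfl⟩
      exact h.hst u hu) fun X hX => tan_H h h0 hX
  refine (((Units.continuous_val.comp (continuous_apply v)).tendsto (1 : GG E n)).eventually
    a).mono fun g a b => ?_
  obtain ⟨u, hu, e⟩ := a (b v)
  exact Subgroup.mem_comap.2 ((Units.ext e : u = g v) ▸ hu :)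

theorem Mm_open : ∀ᶠ g in 𝓝 1, g ∈ St E (dt M) → g ∈ Mm M H := by
  refine nbhd inf_le_left fun i X hX => ?_
  rcases eq_or_ne i v with rfl | e
  · obtain ⟨c, a1, a2, a3⟩ := tan_H h h0 hX
    exact ⟨c, a1, a2, a3.mono fun t ⟨u, hu, e⟩ => ⟨u, single_H h hu, e⟩⟩
  obtain ⟨d, P, hc, hne⟩ := h.crv
  obtain ⟨z1, z2⟩ := cr_zero (K := E i) hc
  have ev := d.continuous_aeval.continuousAt.eventually_ne (z1.trans_ne one_ne_zero)
  have dv := cr_deriv (K := E i) hc
  obtain ⟨y, hy⟩ := lie_mem h.der (LinearMap.range (adl _)) (fun y => ⟨y, rfl⟩) (lie_of_deriv dv z2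
    (ev.mono fun t ht => cr_stab (h.pls.dense_at i) hc h.stab ht))
  obtain ⟨ε, hε, hb⟩ := Metric.nhds_basis_closedBall.eventually_iff.1 ev
  refine irr h.stab h.der (top_spn h h0) _ (fun γ _ Z hZ => Tan.conj
    (by rw [← map_mul, Mdl.rr, map_one]) (loc_conj (Mm_conj h γ) i) hZ) (y := y)
    (hy ▸ ⟨_, dv, z2, ?_⟩) (fun e => hne (sub_eq_zero.1
      (Matrix.map_injective (algebraMap k (E i)).injective
        (hy.symm.trans (by rw [e, map_zero]; exact (map_zero (up (E i))).symm))))) hX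
  filter_upwards [Metric.closedBall_mem_nhds 0 hε] with t ht
  exact ⟨_, path h hc (h.con i e ε) (Metric.mem_closedBall_self hε.le) (fun _ a => hb a) ht,
    toU_val (cr_unit h hc (hb ht))⟩

omit h h0 [DecidableEq ι] [CharZero k] in
/-- **The open subgroup.** -/
theorem opn_all : P011UW8.OPN := by
  intro k ι n Γ _ _ _ _ _ _ E _ _ _ O v M r H x0 h N hN h0
  classical
  have ho := Mm_open h h0
  have hM : Mm M H ≤ (N.map (pp E r)).topologicalClosure := fun g hg =>
    Subgroup.mem_sInf.1 hg.2 _ (opn h N h0)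
  obtain ⟨A, _, x, Q, t, l, x1, x2, ⟨a, u, ne⟩, x3, x4⟩ := h.gen
  have gd := fun S hS => good_of h (S := S) hS x1 x2 x3 fun a => (x4 a).2
  refine ⟨Mm M H, hM, ho, ?_, fun χ c1 c2 => ?_, ?_, Mm_H h h0, inf_le_left⟩
  · obtain ⟨K, k1, k2, k3⟩ := local_compact_nhds ho
    have a : ∀ a, Pi.mulSingle v (pp E r (t a) v) ∈ Subgroup.closure ((K ∩ St E (dt M)) ∪
        Set.range fun a => Pi.mulSingle v (pp E r (t a) v)) := fun a =>
      Subgroup.subset_closure (.inr ⟨a, rfl⟩)
    refine ⟨_, (k3.inter_right (isClosed_St E _)).union (Set.finite_range _).isCompact,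
      le_antisymm ((Subgroup.closure_le _).2 ?_) fun g hg => Subgroup.mem_sInf.1 hg.2 _
        (gd _ (mem_of_superset k1 fun g a b => Subgroup.subset_closure (.inl ⟨a, b⟩))
          fun b m hm => mul_mem (mul_mem (inv_mem (a b)) hm) (a b))⟩
    rintro _ (⟨a, b⟩ | ⟨a, rfl⟩)
    exacts [k2 a b, single_H h (h.rat _)]
  · have z : χ 1 = 0 := by simpa using c2 1 (one_mem _) 1 (one_mem _)
    have iv : ∀ x ∈ Mm M H, χ x⁻¹ = -χ x := fun x hx =>
      eq_neg_of_add_eq_zero_right (by rw [← c2 x hx _ (inv_mem hx), mul_inv_cancel, z])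
    let S : Subgroup (GG E n) :=
      { carrier := {g | g ∈ Mm M H ∧ χ g = 0}
        mul_mem' := fun a b => ⟨mul_mem a.1 b.1, by rw [c2 _ a.1 _ b.1, a.2, b.2, add_zero]⟩
        one_mem' := ⟨one_mem _, z⟩
        inv_mem' := fun a => ⟨inv_mem a.1, by rw [iv _ a.1, a.2, neg_zero]⟩ }
    have cj : ∀ g ∈ Mm M H, ∀ m ∈ Mm M H, χ (g * m * g⁻¹) = χ m := fun g hg m hm => by
      rw [c2 _ (mul_mem hg hm) _ (inv_mem hg), c2 _ hg _ hm, iv _ hg]
      ring
    have : ((Mm M H).comap (pp E r)).Normal := ⟨fun a ha γ => by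
      rw [Subgroup.mem_comap, map_mul, map_mul, map_inv]
      exact Mm_conj h γ _ ha⟩
    have m := single_H h (u := x a u) (x3 ▸ Subgroup.subset_closure (Set.mem_iUnion.2 ⟨a, _, rfl⟩))
    obtain ⟨_, ⟨b1, b2⟩, b, -, rfl⟩ := mem_closure_iff_nhds.1 (hM m) _ (inter_mem
      ((Continuous.tendsto' (f := fun g => (Pi.mulSingle v (x a u))⁻¹ * g) (by fun_prop) _ 1
        (inv_mul_cancel _)).eventually ho) (isOpen_ne.mem_nhds
          (show (Pi.mulSingle v (x a u) : GG E n) ≠ 1 from fun e => ne (by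
            simpa using congrFun e v))))
    have o := opn_of h ((Mm M H).comap (pp E r)) ⟨b, by
      simpa using mul_mem m (b1 (mul_mem (inv_mem m.1) fun i => (h.stab b).map _)),
        fun e => b2 (_root_.funext fun i => Units.ext (by rw [pp_val, e, map_one]; rfl))⟩ (S := S)
      (fun g hg => hg.1.1) (fun a ha m hm => ⟨Mm_conj h a _ hm.1, (cj _ ha _ hm.1).trans hm.2⟩)
      fun a ha => ho.mono fun g hg hg' => by
        have a1 := hg (closure_le_St E r h.stab hg')
        have a2 := mul_mem (mul_mem a1 ha) (inv_mem a1)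
        exact ⟨mul_mem a2 (inv_mem ha), by
          rw [c2 _ a2 _ (inv_mem ha), cj _ a1 _ ha, iv _ ha, add_neg_cancel]⟩
    refine fun g hg => (Subgroup.mem_sInf.1 hg.2 S (gd S o fun a m hm => ?_)).2
    have a1 := inv_mem (single_H h (h.rat (t a)))
    exact ⟨mul_mem (mul_mem a1 hm.1) (single_H h (h.rat _)), by
      simpa using (cj _ a1 _ hm.1).trans hm.2⟩
  · refine Subgroup.pi_mem_of_mulSingle_mem _ fun i => ?_
    rcases eq_or_ne i v with rfl | e
    · exact single_H h (h.rat _)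
    obtain ⟨d, P, hc, e1, hI⟩ := h.path
    obtain ⟨I, i1, i2, i3, i4⟩ := hI i e
    have a := i4 1 i3
    have b := path h hc i1 i2 i4 i3
    rw [← map_one (algebraMap k (E i))] at a b
    rwa [show toU _ = pp E r x0 i from Units.ext ((toU_val (cr_unit h hc a)).trans
      (cr_rat a e1))] at b

omit h h0 [DecidableEq ι] [CharZero k] in
/-- **The normal subgroup theorem.** -/
theorem ana (hc : COC) : ANA := P011UW8.ana_of hc opn_all

end Vale.Agent.P011UN
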