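import Vale.Agent.P011.H699.ConjLim
import Vale.Agent.P011.H487.GUni

/-!
Mautner's lemma for a group acting on a space.
-/

open MeasureTheory Filter Topology Set Matrix Matrix.SpecialLinearGroup
open scoped ENNReal NNReal Pointwise

namespace Vale.Agent.P011UN

open Vale.Agent.P011 Vale.Agent.P011.H699

variable {G : Type*} [Group G] [TopologicalSpace G] [IsTopologicalGroup G]

/-- A discrete cocompact image. -/
structure Coc {Γ : Type*} [Group Γ] (i : Γ →* G) : Prop where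
  fin : ∀ C : Set G, IsCompact C → {γ | i γ ∈ C}.Finite
  cov : ∃ C : Set G, IsCompact C ∧ ∀ x, ∃ γ, i γ * x ∈ C

variable {Γ Q A : Type*} [Group Γ] [Group Q] {i : Γ →* G}

theorem Coc.countable [SigmaCompactSpace G] (h : Coc i) : Countable Γ := by
  rw [← countable_univ_iff]
  refine (countable_iUnion fun m => (h.fin _ (isCompact_compactCovering G m)).countable).mono
    fun γ _ => ?_
  obtain ⟨m, hm⟩ := exists_mem_compactCovering (i γ)
  exact mem_iUnion.2 ⟨m, hm⟩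

theorem Coc.prod (h : Coc i) : Coc (i.prodMap i) := by
  obtain ⟨C, hC, e⟩ := h.cov
  refine ⟨fun K hK => ((h.fin _ (hK.image continuous_fst)).prod
    (h.fin _ (hK.image continuous_snd))).subset fun γ m => ⟨⟨_, m, rfl⟩, ⟨_, m, rfl⟩⟩,
    C ×ˢ C, hC.prod hC, fun x => ?_⟩
  obtain ⟨a, ha⟩ := e x.1
  obtain ⟨b, hb⟩ := e x.2
  exact ⟨(a, b), ha, hb⟩

theorem Coc.cocpt [SigmaCompactSpace G] [Finite Q] (h : Coc i) (c : Γ →* Q) :
    ∃ K, Cocpt (c.ker.map i) K := by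
  obtain ⟨C, hC, e⟩ := h.cov
  have := h.countable
  choose r hr using fun q : c.range => q.2
  have hK : IsCompact (⋃ q : c.range, (fun x => i (r q) * x) '' C) :=
    isCompact_iUnion fun q => hC.image (by fun_prop)
  refine ⟨_, (countable_coe_iff.2 ((to_countable (c.ker : Set Γ)).image i) :), hK, fun x => ?_,
    fun x => ?_⟩
  · obtain ⟨γ, hγ⟩ := e x
    refine ⟨i (r ⟨c γ⁻¹, _, rfl⟩ * γ), ⟨_, ?_, rfl⟩, mem_iUnion.2 ⟨⟨c γ⁻¹, _, rfl⟩, _, hγ, ?_⟩⟩
    · rw [SetLike.mem_coe, MonoidHom.mem_ker, map_mul, hr, ← map_mul, inv_mul_cancel, map_one]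
    · rw [map_mul, mul_assoc]
  · refine (((h.fin _ (hK.image (f := (· * x⁻¹)) (by fun_prop))).image i).preimage
      Subtype.val_injective.injOn).subset ?_
    rintro ⟨_, γ, hγ, rfl⟩ m
    exact ⟨γ, ⟨_, m, mul_inv_cancel_right _ _⟩, rfl⟩

variable [LocallyCompactSpace G] [T2Space G] [SecondCountableTopology G] [MeasurableSpace G]
  [BorelSpace G] {μ : Measure G} [μ.IsHaarMeasure] [μ.IsMulRightInvariant]

/-- Mautner for `SL_n(F)`, with an element which acts as a diagonal matrix. -/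
theorem sl_le {N : Subgroup G} {K : Set G} (hN : Cocpt N K) {ι F : Type*} [Fintype ι]
    [DecidableEq ι] [Nontrivial ι] [Field F] [TopologicalSpace F] [IsTopologicalRing F]
    {E : G → ℝ} (hE : Measurable E) {C : ℝ} (hC : ∀ x, |E x| ≤ C)
    (hinv : ∀ γ ∈ N, ∀ x, E (γ * x) = E x) (j : SpecialLinearGroup ι F →* G) (hj : Continuous j)
    {z : ι → F} (hz : Spread z) {Z : SpecialLinearGroup ι F}
    (hZ : (Z : Matrix ι ι F) = diagonal z) {h : SpecialLinearGroup ι F} {w : G}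
    (hw : w ∈ rstab μ E) (hc : ∀ s, w * j s * w⁻¹ = j (h * Z * h⁻¹ * s * (h * Z * h⁻¹)⁻¹)) :
    j.range ≤ rstab μ E := by
  have hcont : ∀ (i k : ι) (hik : i ≠ k),
      Tendsto (fun a : F => j (h * transvection hik a * h⁻¹)) (𝓝 0) (𝓝 1) := fun i k hik => by
    have h3 : (transvection hik (0 : F) : SpecialLinearGroup ι F) = 1 :=
      H748.sl_ext (by rw [coeMonoidHom_apply, transvection_coe]; simp)
    have h1 : Continuous fun a : F => j (h * transvection hik a * h⁻¹) :=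
      hj.comp ((continuous_const.mul (continuous_transvection hik)).mul continuous_const)
    simpa [h3] using h1.tendsto 0
  have pw : ∀ {w : G} {Z : SpecialLinearGroup ι F},
      (∀ s, w * j s * w⁻¹ = j (h * Z * h⁻¹ * s * (h * Z * h⁻¹)⁻¹)) → ∀ (m : ℕ) s,
      w ^ m * j (h * s * h⁻¹) * (w ^ m)⁻¹ = j (h * (Z ^ m * s * (Z ^ m)⁻¹) * h⁻¹) := by
    intro w Z hc m s
    induction m with
    | zero => simp
    | succ m ih =>
      rw [pow_succ' w, show w * w ^ m * j (h * s * h⁻¹) * (w * w ^ m)⁻¹ =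
        w * (w ^ m * j (h * s * h⁻¹) * (w ^ m)⁻¹) * w⁻¹ by group, ih, hc, pow_succ' Z]
      congr 1
      group
  have hc' : ∀ s, w⁻¹ * j s * w⁻¹⁻¹ = j (h * Z⁻¹ * h⁻¹ * s * (h * Z⁻¹ * h⁻¹)⁻¹) := fun s => by
    have := hc (h * Z⁻¹ * h⁻¹ * s * (h * Z⁻¹ * h⁻¹)⁻¹)
    rw [show h * Z * h⁻¹ * (h * Z⁻¹ * h⁻¹ * s * (h * Z⁻¹ * h⁻¹)⁻¹) * (h * Z * h⁻¹)⁻¹ = s by group]
      at this
    rw [← this]
    group
  let P : Subgroup (SpecialLinearGroup ι F) :=
    (rstab μ E).comap (j.comp (MulAut.conj h).toMonoidHom)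
  have key : ∀ (i k : ι) (hik : i ≠ k) (a : F),
      (transvection hik a : SpecialLinearGroup ι F) ∈ P := fun i k hik a => by
    change j (h * transvection hik a * h⁻¹) ∈ rstab μ E
    rcases hz.2 i k hik with h1 | h1
    · refine mem_rstab_of_pow hN hE hC hinv hw (((hcont i k hik).comp (h1 a)).congr fun m => ?_)
      rw [Function.comp_apply, ← diag_pow_conj hik hz.1 hZ a m, pw hc]
    · refine mem_rstab_of_pow hN hE hC hinv ((rstab μ E).inv_mem hw)
        (((hcont i k hik).comp (h1 a)).congr fun m => ?_)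
      rw [Function.comp_apply, ← diag_inv_pow_conj hik hz.1 hZ a m, pw hc']
  have all : ∀ g : SpecialLinearGroup ι F, g ∈ P := fun g => by
    refine diagonal_transvection_induction' (fun g => g ∈ P) g ?_ key fun A B => P.mul_mem
    intro i k hik c hc
    rw [H748.diag2n_eq hik c hc]
    exact P.mul_mem (P.mul_mem (P.mul_mem (key _ _ _ _) (key _ _ _ _)) (key _ _ _ _))
      (P.mul_mem (P.mul_mem (key _ _ _ _) (key _ _ _ _)) (key _ _ _ _))
  rintro _ ⟨g, rfl⟩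
  have h5 : j (h * (h⁻¹ * g * h) * h⁻¹) ∈ rstab μ E := all (h⁻¹ * g * h)
  rwa [show h * (h⁻¹ * g * h) * h⁻¹ = g by group] at h5

variable {V : Type*} [TopologicalSpace V] [SecondCountableTopology V] [MeasurableSpace V]
  [BorelSpace V] [MulAction G V] [ContinuousSMul G V] {ν : Measure V} [MulAction Q A]

omit [IsTopologicalGroup G] [LocallyCompactSpace G] [T2Space G] [SecondCountableTopology G]
  [MeasurableSpace G] [BorelSpace G] [SecondCountableTopology V] in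
theorem ex_equi [Countable Γ] [Countable A] (i : Γ →* G) (c : Γ →* Q) {ψ : A → V → ℝ}
    (hψ : ∀ a, Measurable (ψ a)) (hC : ∀ a x, |ψ a x| ≤ 1)
    (he : ∀ γ a, ∀ᵐ x ∂ν, ψ (c γ • a) (i γ • x) = ψ a x) :
    ∃ ψ' : A → V → ℝ, (∀ a, Measurable (ψ' a)) ∧ (∀ a x, |ψ' a x| ≤ 1) ∧
      (∀ γ a x, ψ' (c γ • a) (i γ • x) = ψ' a x) ∧ ∀ a, ∀ᵐ x ∂ν, ψ' a x = ψ a x := by
  classical
  set B : Set V := {x | ∀ (γ : Γ) (a : A), ψ (c γ • a) (i γ • x) = ψ a x} with hB
  have hBm : MeasurableSet B := by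
    rw [show B = ⋂ (γ : Γ), ⋂ (a : A), {x | ψ (c γ • a) (i γ • x) = ψ a x} by ext x; simp [hB]]
    exact MeasurableSet.iInter fun γ => MeasurableSet.iInter fun a =>
      measurableSet_eq_fun ((hψ _).comp (continuous_const_smul _).measurable) (hψ a)
  have hae : ∀ᵐ x ∂ν, x ∈ B := ae_all_iff.2 fun γ => ae_all_iff.2 (he γ)
  have one : ∀ (δ : Γ) (x : V), x ∈ B → i δ • x ∈ B := fun δ x hx γ a => by
    have h1 := hx (γ * δ) ((c δ)⁻¹ • a)
    have h2 := hx δ ((c δ)⁻¹ • a)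
    rw [smul_inv_smul] at h2
    rw [map_mul, map_mul, mul_smul, mul_smul, smul_inv_smul] at h1
    rw [h2, h1]
  refine ⟨fun a => B.indicator (ψ a), fun a => (hψ a).indicator hBm, fun a x => ?_,
    fun γ a x => ?_, fun a => hae.mono fun x hx => indicator_of_mem hx _⟩
  · by_cases hx : x ∈ B
    · simpa [hx] using hC a x
    · simp [hx]
  · change B.indicator (ψ (c γ • a)) (i γ • x) = B.indicator (ψ a) x
    by_cases hx : x ∈ B
    · rw [indicator_of_mem hx, indicator_of_mem (one γ x hx)]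
      exact hx γ a
    · rw [indicator_of_notMem hx, indicator_of_notMem fun h => hx (by simpa using one γ⁻¹ _ h)]

variable {G₀ : Type*} [Group G₀] [MeasurableSpace G₀] [MeasurableMul G₀] {μ₀ : Measure G₀}
  [SFinite μ₀] [μ₀.IsMulLeftInvariant]

omit [SecondCountableTopology V] in
theorem fib_fixed [Finite A] (i : Γ →* G) (c : Γ →* Q) (hμ₀ : μ₀ ≠ 0) (j : G₀ →* G)
    (hj : Measurable j) (hn : j.range.Normal) {p : V}
    (hM : ∀ E : G → ℝ, Measurable E → (∀ g, |E g| ≤ 1) →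
      (∀ γ : Γ, c γ = 1 → ∀ g, E (i γ * g) = E g) → (∀ w, w • p = p → ∀ g, E (g * w) = E g) →
      ∀ s : G₀, ∀ᵐ g ∂μ, E (g * j s) = E g)
    {ρ : Q} (hρ : ∀ O ∈ 𝓝 (1 : G), ∃ γ : Γ, c γ = ρ ∧ ∃ o ∈ O, ∃ s : G₀, i γ = o * j s)
    {ψ : A → V → ℝ} (hψ : ∀ a, Measurable (ψ a)) (hC : ∀ a x, |ψ a x| ≤ 1)
    (he : ∀ γ a x, ψ (c γ • a) (i γ • x) = ψ a x) :
    ∀ᵐ g ∂μ, ∀ a, ψ (ρ • a) (g • p) = ψ a (g • p) := by
  classical
  have := Fintype.ofFinite A
  have hmp : Measurable fun g : G => g • p := (continuous_id.smul continuous_const).measurable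
  let f : G → EuclideanSpace ℝ A := fun g => WithLp.toLp 2 fun a => ψ a (g • p)
  have hf : Measurable f := (WithLp.measurable_toLp 2 (A → ℝ)).comp
    (measurable_pi_lambda _ fun a => (hψ a).comp hmp)
  have key := H219.slice_fixed (μ := μ) (μ₀ := μ₀) hμ₀ j hj hn
    (fun s => (measurePreserving_mul_right μ (j s)).quasiMeasurePreserving)
    (f := f) hf.aestronglyMeasurable (fun s => ?_)
    (LinearIsometryEquiv.piLpCongrLeft 2 ℝ ℝ (MulAction.toPerm ρ)) (fun O hO => ?_)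
  · filter_upwards [key] with g hg a
    have h1 := congrArg (fun v : EuclideanSpace ℝ A => v (ρ • a)) hg
    simp only [LinearIsometryEquiv.piLpCongrLeft_apply] at h1
    simpa [f] using h1.symm
  · have h1 : ∀ a, ∀ᵐ g ∂μ, ψ a ((g * j s) • p) = ψ a (g • p) := fun a =>
      hM (fun g => ψ a (g • p)) ((hψ a).comp hmp) (fun g => hC _ _) (fun γ hγ g => by
        have h2 := he γ a (g • p)
        rwa [hγ, one_smul, ← mul_smul] at h2) (fun w hw g => by rw [mul_smul, hw]) s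
    filter_upwards [ae_all_iff.2 h1] with g hg
    exact congrArg (WithLp.toLp 2) (funext hg)
  · obtain ⟨γ, hγ, o, ho, s, hs⟩ := hρ O hO
    refine ⟨i γ, Eventually.of_forall fun g => ?_, o, ho, s, hs⟩
    ext b
    rw [LinearIsometryEquiv.piLpCongrLeft_apply]
    change ψ b ((i γ * g) • p) = ψ (ρ⁻¹ • b) (g • p)
    rw [← he γ (ρ⁻¹ • b), hγ, smul_inv_smul, mul_smul]

theorem act_fixed [SFinite ν] [Countable Γ] [Finite A] (i : Γ →* G) (c : Γ →* Q) (hμ₀ : μ₀ ≠ 0)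
    (j : G₀ →* G) (hj : Measurable j) (hn : j.range.Normal)
    (hq : ∀ g : G, Measure.QuasiMeasurePreserving (g • ·) ν ν) {X0 : Set V} (hX0 : IsOpen X0)
    (hM : ∀ p ∈ X0, ∀ E : G → ℝ, Measurable E → (∀ g, |E g| ≤ 1) →
      (∀ γ : Γ, c γ = 1 → ∀ g, E (i γ * g) = E g) → (∀ w, w • p = p → ∀ g, E (g * w) = E g) →
      ∀ s : G₀, ∀ᵐ g ∂μ, E (g * j s) = E g)
    {ρ : Q} (hρ : ∀ O ∈ 𝓝 (1 : G), ∃ γ : Γ, c γ = ρ ∧ ∃ o ∈ O, ∃ s : G₀, i γ = o * j s)
    {ψ : A → V → ℝ} (hψ : ∀ a, Measurable (ψ a)) (hC : ∀ a x, |ψ a x| ≤ 1)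
    (he : ∀ γ a, ∀ᵐ x ∂ν, ψ (c γ • a) (i γ • x) = ψ a x) (a : A) :
    ∀ᵐ x ∂ν, x ∈ X0 → ψ (ρ • a) x = ψ a x := by
  obtain ⟨ψ', h1, h2, h3, h4⟩ := ex_equi i c hψ hC he
  suffices hs : ∀ᵐ x ∂ν, x ∈ X0 → ψ' (ρ • a) x = ψ' a x by
    filter_upwards [hs, h4 a, h4 (ρ • a)] with g hg h5 h6 hg0
    rw [← h5, ← h6, hg hg0]
  have hF : Measurable fun x : G × V => x.1 • x.2 := continuous_smul.measurable
  have hms : MeasurableSet {x : G × V | x.2 ∈ X0 → ψ' (ρ • a) (x.1 • x.2) = ψ' a (x.1 • x.2)} :=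
    MeasurableSet.imp (hX0.measurableSet.preimage measurable_snd)
      (measurableSet_eq_fun ((h1 _).comp hF) ((h1 _).comp hF))
  have h6 : ∀ᵐ g ∂μ, ∀ᵐ p ∂ν, p ∈ X0 → ψ' (ρ • a) (g • p) = ψ' a (g • p) :=
    (Measure.ae_ae_comm (p := fun (g : G) (p : V) => p ∈ X0 → ψ' (ρ • a) (g • p) = ψ' a (g • p))
      hms).2 (Eventually.of_forall fun p => by
        by_cases hp : p ∈ X0
        · exact (fib_fixed i c hμ₀ j hj hn (hM p hp) hρ h1 h2 h3).mono fun g hg _ => hg a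
        · exact Eventually.of_forall fun g hg => absurd hg hp)
  have h7 : ∀ᵐ g ∂μ, ∀ᵐ q ∂ν, g⁻¹ • q ∈ X0 → ψ' (ρ • a) q = ψ' a q := by
    filter_upwards [h6] with g hg
    filter_upwards [(hq g⁻¹).ae hg] with q hq hq0
    simpa using hq hq0
  obtain ⟨t, hts, htc, htd⟩ := (Measure.dense_of_ae h7).exists_countable_dense_subset
  filter_upwards [(ae_ball_iff htc).2 fun g hg => hts hg] with q hq hq0
  obtain ⟨g, a1, a2⟩ := htd.inter_open_nonempty {g : G | g⁻¹ • q ∈ X0}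
    (hX0.preimage (continuous_inv.smul continuous_const)) ⟨1, by simpa using hq0⟩
  exact hq g a2 a1

omit [μ.IsMulRightInvariant] in
/-- **Mautner's lemma for an action.** -/
theorem act_sl [SFinite ν] [Finite A] [Finite Q] (hi : Coc i) (c : Γ →* Q)
    {ι F : Type*} [Fintype ι] [DecidableEq ι] [Nontrivial ι] [NontriviallyNormedField F]
    [ProperSpace F] (j : SpecialLinearGroup ι F →* G) (hj : Continuous j) (hn : j.range.Normal)
    (hq : ∀ g : G, Measure.QuasiMeasurePreserving (g • ·) ν ν) {X0 : Set V} (hX0 : IsOpen X0)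
    (hs : ∀ p ∈ X0, ∃ h : SpecialLinearGroup ι F, ∀ (Z : SpecialLinearGroup ι F) (z : ι → F),
      (Z : Matrix ι ι F) = diagonal z → ∃ w : G, w • p = p ∧
        ∀ s, w * j s * w⁻¹ = j (h * Z * h⁻¹ * s * (h * Z * h⁻¹)⁻¹))
    {ρ : Q} (hρ : ∀ O ∈ 𝓝 (1 : G), ∃ γ : Γ, c γ = ρ ∧ ∃ o ∈ O, ∃ s, i γ = o * j s)
    {ψ : A → V → ℝ} (hψ : ∀ a, Measurable (ψ a)) (hC : ∀ a x, |ψ a x| ≤ 1)
    (he : ∀ γ a, ∀ᵐ x ∂ν, ψ (c γ • a) (i γ • x) = ψ a x) (a : A) :
    ∀ᵐ x ∂ν, x ∈ X0 → ψ (ρ • a) x = ψ a x := by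
  let _ : MeasurableSpace (SpecialLinearGroup ι F) := borel _
  have _ : BorelSpace (SpecialLinearGroup ι F) := ⟨rfl⟩
  have hemb : IsClosedEmbedding ((↑) : SpecialLinearGroup ι F → Matrix ι ι F) :=
    SpecialLinearGroup.isClosedEmbedding_val
  have _ : LocallyCompactSpace (Matrix ι ι F) := inferInstanceAs (LocallyCompactSpace (ι → ι → F))
  have _ : SigmaCompactSpace (Matrix ι ι F) := inferInstanceAs (SigmaCompactSpace (ι → ι → F))
  have _ : LocallyCompactSpace (SpecialLinearGroup ι F) := hemb.locallyCompactSpace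
  have _ : SigmaCompactSpace (SpecialLinearGroup ι F) := hemb.sigmaCompactSpace
  obtain ⟨ϖ, p1, p2⟩ := NormedField.exists_norm_lt_one F
  obtain ⟨z, hz, Z, hZ⟩ := exists_spread (ι := ι) (norm_pos_iff.1 p1) fun x => by
    simpa using (tendsto_pow_atTop_nhds_zero_of_norm_lt_one p2).const_mul x
  obtain ⟨K, hK⟩ := hi.cocpt c
  have := hi.countable
  have := H487.isMulRightInvariant_of_cocpt (Measure.haar : Measure G) hK
  refine act_fixed (μ := Measure.haar) (μ₀ := (Measure.haar : Measure (SpecialLinearGroup ι F)))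
    i c (NeZero.ne _) j hj.measurable hn hq hX0 (fun p hp E hE hEC hl hr s => ?_) hρ hψ hC he a
  obtain ⟨h, hh⟩ := hs p hp
  obtain ⟨w, w1, w2⟩ := hh Z z hZ
  refine sl_le hK hE hEC ?_ j hj hz hZ (mem_rstab.2 (Eventually.of_forall (hr w w1))) w2 ⟨s, rfl⟩
  rintro _ ⟨γ, hγ, rfl⟩
  exact hl γ hγ

end Vale.Agent.P011UN
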