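import Vale.Agent.P011UN.Mob
import Vale.Agent.P011UE0.SA2

/-!
The approximately invariant means in the adelic setting.
-/

open Filter Topology Set Matrix
open scoped NNReal

namespace Vale.Agent.P011UN

open Vale.Agent.P011 Vale.Agent.P011.H210 Vale.Agent.P011NC Vale.Agent.P011UE0

variable {k A Ω : Type} [Field k] [Ring A] [StarRing A] [Algebra k A] [Field Ω]
  [Algebra k Ω] {n : ℕ} {P : Type} {F E Om : P → Type} [∀ v, NontriviallyNormedField (F v)]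
  [∀ v, NormedRing (E v)] [∀ v, StarRing (E v)] [∀ v, NormedAlgebra (F v) (E v)]
  [∀ v, Field (Om v)] [∀ v, Algebra (F v) (Om v)] (H : Adl k A Ω n F E Om)
  (D : Type) [DivisionRing D] (v : P) (ι : Type) [Fintype ι] [DecidableEq ι]

/-- A factor `D` of the algebra which splits at `v`. -/
structure Fac where
  p : A →+* D
  e : D →ₙ+* A
  ep : ∀ a, e (p a) = H.M.om * a
  pe : ∀ x, p (e x) = x
  π : E v →+* Matrix ι ι (F v)
  cπ : Continuous π
  sπ : Function.Surjective π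
  kπ : ∀ x, π x = 0 → (H.L v).om * x = 0
  f : D →+* Matrix ι ι (F v)
  πj : ∀ a, π (H.j v a) = f (p a)
  j : SpecialLinearGroup ι (F v) →* unitary (E v)
  cj : Continuous j
  πs : ∀ s, π (j s) = s.1
  gp : ∀ s, j s ∈ Gp (E v)
  su : ∀ g ∈ (H.L v).SU, ∃ s, j s = g

namespace Fac

variable {H D v ι} (Z : Fac H D v ι)

theorem e_one : Z.e 1 = H.M.om := by rw [← map_one Z.p, Z.ep, mul_one]

theorem e_left (a : A) (x : D) : Z.e (Z.p a * x) = a * Z.e x := by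
  rw [map_mul, Z.ep, H.M.om_comm, mul_assoc, ← Z.e_one, ← map_mul, one_mul]

theorem e_right (a : A) (x : D) : Z.e (x * Z.p a) = Z.e x * a := by
  rw [map_mul, Z.ep, ← mul_assoc, ← Z.e_one, ← map_mul, mul_one]

/-- The lattices. -/
def Λ {S : Finset P} (h1 : H.arch ⊆ S) (t : Finset D) : AddSubgroup D where
  carrier := {x | ∀ w ∉ S, ‖H.j w (Z.e x)‖₊ ≤ t.sup fun y => ‖H.j w (Z.e y)‖₊}
  zero_mem' := fun w _ => by simp
  add_mem' := fun {a b} ha hb w hw => by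
    have := H.ultra w fun h => hw (h1 h)
    rw [map_add, map_add]
    exact (IsUltrametricDist.nnnorm_add_le_max _ _).trans (max_le (ha w hw) (hb w hw))
  neg_mem' := fun {a} ha w hw => by simpa using ha w hw

theorem Λ_mul {S : Finset P} (h1 : H.arch ⊆ S) {t : Finset D} {a : A}
    (ha : ∀ w ∉ S, ‖H.j w a‖ ≤ 1) {x : D} (hx : x ∈ Z.Λ h1 t) :
    Z.p a * x ∈ Z.Λ h1 t ∧ x * Z.p a ∈ Z.Λ h1 t := by
  refine ⟨fun w hw => le_trans ?_ (hx w hw), fun w hw => le_trans ?_ (hx w hw)⟩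
  · rw [e_left, map_mul]
    exact (nnnorm_mul_le _ _).trans (mul_le_of_le_one_left' (ha w hw))
  · rw [e_right, map_mul]
    exact (nnnorm_mul_le _ _).trans (mul_le_of_le_one_right' (ha w hw))

end Fac

/-- The diagonal map. -/
def jS (S : Finset P) : A →+* ∀ w : S, E w := Pi.ringHom fun w => H.j w

theorem dense_jS (S : Finset P) : DenseRange (jS H S) := by
  classical
  refine Metric.denseRange_iff.2 fun x r hr => ?_
  obtain ⟨a, ha⟩ := H.wa S (fun w => if h : w ∈ S then x ⟨w, h⟩ else 0) r hr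
  refine ⟨a, (dist_pi_lt_iff hr).2 fun w => ?_⟩
  have := ha w w.2
  rwa [dif_pos w.2, ← dist_eq_norm, dist_comm] at this

variable {H D v ι}

theorem Fac.dense_f (Z : Fac H D v ι) : DenseRange Z.f := by
  have h : DenseRange (H.j v) := Metric.denseRange_iff.2 fun x r hr => by
    classical
    obtain ⟨a, ha⟩ := H.wa {v} (Function.update 0 v x) r hr
    have := ha v (Finset.mem_singleton_self v)
    rw [Function.update_self, ← dist_eq_norm, dist_comm] at this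
    exact ⟨a, this⟩
  refine (Z.sπ.denseRange.comp h Z.cπ).mono ?_
  rintro _ ⟨a, rfl⟩
  exact ⟨_, (Z.πj a).symm⟩

variable [∀ v, ContinuousStar (E v)] [∀ v, ProperSpace (F v)] [DecidableEq P]

/-- The data at a finite set of places. -/
noncomputable def Fac.lo (Z : Fac H D v ι) {S : Finset P} (h1 : H.arch ⊆ S) (hv : v ∈ S) :
    Lo Z.f (∀ w : S, E w) (H.cp S ⊤) (H.D S) (Finset D) where
  e := (jS H S).toNonUnitalRingHom.comp Z.e
  u := MonoidHom.toHomUnits ((MonoidHom.pi fun w : S => (unitary (E w)).subtype.comp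
    (Pi.evalMonoidHom (fun w : S => unitary (E w)) w)).comp (H.cp S ⊤).subtype)
  d := MonoidHom.toHomUnits (((Z.p : A →* D).comp (unitary A).subtype).comp
    (H.M.SU.subtype.comp (H.D S).subtype))
  i := ((H.p S).comp (H.D S).subtype).codRestrict _ fun _ => H.mem_cp trivial
  π := Z.π.comp (Pi.evalRingHom (fun w : S => E w) ⟨v, hv⟩)
  j := ((Adl.sg (⟨v, hv⟩ : S)).comp Z.j).codRestrict _ fun s => H.gp_cp S ⟨v, hv⟩ (Z.gp s)
  Λ := Z.Λ h1
  l := atTop
  cen := fun x => funext fun w => by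
    change H.j w (Z.e 1) * x w = x w * H.j w (Z.e 1)
    rw [Z.e_one, H.j_om, (H.L w).om_comm]
  dense := fun x => map_mem_closure (continuous_const_mul _) (dense_jS H S x) <| by
    rintro _ ⟨a, rfl⟩
    refine ⟨Z.p a, ?_⟩
    change jS H S (Z.e _) = jS H S (Z.e 1) * _
    rw [Z.ep, Z.e_one, map_mul]
  cu := continuous_pi fun w => continuous_subtype_val.comp
    ((continuous_apply w).comp continuous_subtype_val)
  cπ := Z.cπ.comp (continuous_apply _)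
  πe := fun x => (Z.πj _).trans (congrArg _ (Z.pe x))
  cj := ((Adl.cont_sg _).comp Z.cj).subtype_mk _
  nj := ⟨by
    rintro _ ⟨s, rfl⟩ g
    have h : ∀ g ∈ H.cp S ⊤, g ⟨v, hv⟩ ∈ (H.L v).SU := fun g hg =>
      H.mem_SUS.1 (H.cl_le (Subgroup.map_subtype_le _) (H.cp_eq S ⊤ ▸ hg)) ⟨v, hv⟩
    have h2 := h _ (H.gp_cp S ⟨v, hv⟩ (Z.gp s))
    rw [Adl.sg_same] at h2
    obtain ⟨s', hs⟩ := Z.su _ (mul_mem (mul_mem (h _ g.2) h2) (inv_mem (h _ g.2)))
    refine ⟨s', Subtype.ext (funext fun w => ?_)⟩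
    change Adl.sg (⟨v, hv⟩ : S) (Z.j s') w = g.1 w * Adl.sg (⟨v, hv⟩ : S) (Z.j s) w * (g.1 w)⁻¹
    by_cases e : w = ⟨v, hv⟩
    · subst e
      rw [Adl.sg_same, Adl.sg_same, hs]
    · rw [Adl.sg_ne e, Adl.sg_ne e, mul_one, mul_inv_cancel]⟩
  J := fun s s' x hx h => funext fun w => by
    change (Adl.sg (⟨v, hv⟩ : S) (Z.j s) w : E w) * x w = x w * Adl.sg (⟨v, hv⟩ : S) (Z.j s') w
    by_cases e : w = ⟨v, hv⟩
    · subst e
      have a : H.j v (Z.e 1) * x ⟨v, hv⟩ = x ⟨v, hv⟩ := congrFun hx ⟨v, hv⟩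
      have b := Z.kπ (Z.j s * x ⟨v, hv⟩ - x ⟨v, hv⟩ * Z.j s') (by
        rw [map_sub, map_mul, map_mul, Z.πs, Z.πs]
        exact sub_eq_zero.2 h)
      rw [Z.e_one, H.j_om] at a
      rw [mul_sub, ← mul_assoc, ← mul_assoc, (H.L v).om_comm, mul_assoc, a] at b
      rw [Adl.sg_same, Adl.sg_same]
      exact sub_eq_zero.1 b
    · simp [Adl.sg_ne e]
  iu := fun γ => by
    change jS H S (Z.e 1) * jS H S γ.1.1 = jS H S (Z.e (Z.p γ.1.1))
    rw [Z.ep, Z.e_one, map_mul]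
  coc := ⟨fun C hC => ((H.hprop S _ (hC.image continuous_subtype_val)).preimage
      Subtype.val_injective.injOn).subset fun γ m => ⟨γ.2, _, m, rfl⟩, by
    obtain ⟨C, hC, h⟩ := H.coc_cp h1 ⟨v, hv⟩
    refine ⟨_, (H.isClosed_cp S ⊤).isClosedEmbedding_subtypeVal.isCompact_preimage hC.inv,
      fun x => ?_⟩
    obtain ⟨d, hd, e⟩ := h _ x⁻¹.2
    refine ⟨(⟨d, hd⟩ : H.D S)⁻¹, ?_⟩
    change ((H.p S d⁻¹) * x.1)⁻¹ ∈ C
    simpa using e⟩
  ne := inferInstance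
  lf := fun t K hK => by
    obtain ⟨R, hR⟩ := hK.isBounded.exists_norm_le
    refine ((H.disc (fun w => if w ∈ S then R else (t.sup fun y => ‖H.j w (Z.e y)‖₊ : ℝ≥0))
      ((S.finite_toSet.union (t.finite_toSet.biUnion fun y _ => H.fin (Z.e y))).subset
        fun w hw => ?_)).preimage (f := Z.e)
      (Function.LeftInverse.injective Z.pe).injOn).subset fun x m w => ?_
    · by_cases h : w ∈ S
      · exact .inl h
      · rw [mem_ofPred_eq, if_neg h] at hw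
        obtain ⟨y, hy, e⟩ := Finset.lt_sup_iff.1 (NNReal.one_lt_coe.1 hw)
        exact .inr (mem_biUnion hy e)
    · split_ifs with h
      · exact (norm_le_pi_norm (jS H S (Z.e x)) ⟨w, h⟩).trans (hR _ m.2)
      · exact m.1 w h
  ev := fun x => (eventually_ge_atTop {x}).mono fun t ht w _ =>
    Finset.le_sup (f := fun y => ‖H.j w (Z.e y)‖₊) (ht (Finset.mem_singleton_self x))
  st := fun γ t x hx => Z.Λ_mul h1 (fun w hw => (H.mem_D.1 γ.2 w hw).1) hx

/-- **The approximately invariant means.** -/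
theorem Fac.ne [Nontrivial ι] (Z : Fac H D v ι) {Q : Type*} [Group Q] [Finite Q]
    (c : H.M.SU →* Q) (N : Subgroup Q)
    (full : ∀ S : Finset P, H.arch ⊆ S → v ∈ S → ∀ ε : ℝ, 0 < ε → ∀ ρ ∈ N, ∃ g ∈ H.D S, c g = ρ ∧
      ∀ w ∈ S, w ≠ v → ‖(H.q w g : E w) - 1‖ < ε)
    {σ : D} (hσ : Z.f σ ∈ SR ι (F v)) (κ : D → Q)
    (hκ : ∀ (g : H.M.SU) y, κ (Z.p g.1 * y * Z.p g⁻¹.1) = c g * κ y * (c g)⁻¹)
    {X : Type*} (pt : X → D) (hX : ∀ y, y * σ ≠ σ * y → ∃ x, pt x = y)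
    {HS : Set (Equiv.Perm X)} (hS : ∀ h ∈ HS, ∃ a b c d : D, Commute a σ ∧ Commute b σ ∧
      Commute c σ ∧ Commute d σ ∧ a * d - b * c ≠ 0 ∧
        ∀ x, pt (h x) = (a * pt x + b) * (c * pt x + d)⁻¹)
    {K : Type*} {Tk : K → Equiv.Perm X}
    (hT : ∀ b, ∃ z : D, (∀ y, z * y = y * z) ∧ ∀ x, pt (Tk b x) = pt x + z) :
    H966.NE (fun x => κ (pt x)) N HS Tk := by
  intro m h b ρ a a' h1 h2 ε hε
  choose z hz hz' using hT
  choose α β γ δ c1 c2 c3 c4 c5 c6 using fun j => hS _ (h1 j)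
  choose M hM using fun j => ex_gl hσ (c1 j) (c2 j) (c3 j) (c4 j) (c5 j)
  obtain ⟨S, s1, s2, s3⟩ : ∃ S : Finset P, H.arch ⊆ S ∧ v ∈ S ∧ ∀ j a b, ∀ w ∉ S,
      ‖H.j w (Z.e ((M j).1 a b))‖ ≤ 1 ∧ ‖H.j w (Z.e ((M j)⁻¹.1 a b))‖ ≤ 1 := by
    have f := finite_iUnion fun q : Fin m × Fin 2 × Fin 2 =>
      (H.fin (Z.e ((M q.1).1 q.2.1 q.2.2))).union (H.fin (Z.e ((M q.1)⁻¹.1 q.2.1 q.2.2)))
    refine ⟨insert v (H.arch ∪ f.toFinset), fun w hw => by simp [hw], by simp,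
      fun j a b w hw => ?_⟩
    by_contra e
    rw [not_and_or, not_le, not_le] at e
    exact hw (Finset.mem_insert_of_mem (Finset.mem_union_right _
      (f.mem_toFinset.2 (mem_iUnion.2 ⟨(j, a, b), e⟩))))
  have := fun w => (H.L w).proper
  have := fun w => (H.L w).locCompact
  have : LocallyCompactSpace (H.cp S ⊤) :=
    (H.isClosed_cp S ⊤).isClosedEmbedding_subtypeVal.locallyCompactSpace
  obtain ⟨l, l1, l2⟩ := (Z.lo s1 s2).ne_lo Z.dense_f hσ (c.comp (H.D S).subtype) κ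
    (fun g y => hκ g y) pt hX M
    (fun j a b => by
      rw [hM]
      fin_cases a <;> fin_cases b
      exacts [c1 j, c2 j, c3 j, c4 j])
    (fun j => by rw [hM]; exact c5 j)
    (fun j a b t x hx => ⟨Z.pe ((M j).1 a b) ▸ (Z.Λ_mul s1 (fun w hw => (s3 j a b w hw).1) hx).1,
      Z.pe ((M j)⁻¹.1 a b) ▸ (Z.Λ_mul s1 (fun w hw => (s3 j a b w hw).2) hx).1⟩)
    (fun j => z (b j)) (fun j => hz _) ρ a a' (fun j O hO => by
      obtain ⟨r, hr, hO⟩ := Metric.mem_nhds_iff.1 hO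
      obtain ⟨g, g1, g2, g3⟩ := full S s1 s2 r hr _ (h2 j)
      obtain ⟨s, hs⟩ := Z.su _ (H.q_SU v g)
      refine ⟨⟨g, g1⟩, g2, _, hO ((dist_pi_lt_iff hr).2 fun w => ?_), s,
        (inv_mul_cancel_right _ _).symm⟩
      change dist (H.q w g * (Adl.sg (⟨v, s2⟩ : S) (Z.j s) w)⁻¹) 1 < r
      by_cases e : w = ⟨v, s2⟩
      · subst e
        rwa [Adl.sg_same, hs, mul_inv_cancel, dist_self]
      · rw [Adl.sg_ne e, inv_one, mul_one, Subtype.dist_eq, dist_eq_norm]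
        exact g3 w w.2 fun e' => e (Subtype.ext e')) hε
  refine ⟨l, l1, fun j => ?_⟩
  simpa [hz', c6, mob, hM] using l2 j

end Vale.Agent.P011UN
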