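import Vale.Agent.P011.H83.Unif

/-!
Limits of coloured lattice point sums.
-/

open MeasureTheory Filter Topology Set
open scoped CompactlySupported ENNReal NNReal

namespace Vale.Agent.P011UN

open Vale.Agent.P011 Vale.Agent.P011.H83

section av

variable {W V : Type*} [TopologicalSpace V]

/-- The sum of a test function over the points of `s`. -/
noncomputable def av (ι : W → V) (s : Set W) (φ : C_c(V, ℝ)) : ℝ := ∑ᶠ w ∈ s, φ (ι w)

/-- Finitely many points in every compact set. -/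
def LF (ι : W → V) (s : Set W) : Prop := ∀ K, IsCompact K → (s ∩ ι ⁻¹' K).Finite

variable {ι : W → V} {s s' : Set W} {φ ψ : C_c(V, ℝ)}

theorem LF.mono (h : LF ι s') (hs : s ⊆ s') : LF ι s := fun K hK =>
  (h K hK).subset (inter_subset_inter_left _ hs)

theorem av_eq (F : Finset W) (h1 : ∀ w ∈ F, w ∈ s) (h2 : ∀ w ∈ s, φ (ι w) ≠ 0 → w ∈ F) :
    av ι s φ = ∑ w ∈ F, φ (ι w) :=
  finsum_mem_eq_sum_of_inter_support_eq _
    (Set.ext fun w => ⟨fun h => ⟨h2 w h.1 h.2, h.2⟩, fun h => ⟨h1 w h.1, h.2⟩⟩)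

theorem LF.ex (h : LF ι s) (φ ψ : C_c(V, ℝ)) : ∃ F : Finset W, (∀ w ∈ F, w ∈ s) ∧
    ∀ w ∈ s, φ (ι w) ≠ 0 ∨ ψ (ι w) ≠ 0 → w ∈ F := by
  have := h _ (φ.hasCompactSupport.isCompact.union ψ.hasCompactSupport.isCompact)
  refine ⟨this.toFinset, fun w m => (this.mem_toFinset.1 m).1, fun w m a => this.mem_toFinset.2
    ⟨m, a.imp (fun a => subset_tsupport _ a) fun a => subset_tsupport _ a⟩⟩

theorem av_add (h : LF ι s) (φ ψ : C_c(V, ℝ)) : av ι s (φ + ψ) = av ι s φ + av ι s ψ := by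
  obtain ⟨F, a, b⟩ := h.ex φ ψ
  rw [av_eq F a fun w m e => b w m (.inl e), av_eq F a fun w m e => b w m (.inr e),
    av_eq F a fun w m e => b w m ?_, ← Finset.sum_add_distrib]
  · rfl
  · by_contra c
    push Not at c
    exact e (by rw [CompactlySupportedContinuousMap.add_apply, c.1, c.2, add_zero])

theorem av_smul (h : LF ι s) (r : ℝ) (φ : C_c(V, ℝ)) : av ι s (r • φ) = r * av ι s φ := by
  obtain ⟨F, a, b⟩ := h.ex φ φ
  rw [av_eq F a fun w m e => b w m (.inl e),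
    av_eq F a fun w m e => b w m (.inl (right_ne_zero_of_mul e)), Finset.mul_sum]
  rfl

theorem av_mono (h : LF ι s') (hs : s ⊆ s') (h1 : ∀ x, φ x ≤ ψ x)
    (h2 : ∀ w ∈ s', w ∉ s → 0 ≤ ψ (ι w)) : av ι s φ ≤ av ι s' ψ := by
  classical
  obtain ⟨F, a, b⟩ := h.ex φ ψ
  rw [av_eq F a fun w m e => b w m (.inr e), av_eq (F.filter (· ∈ s))
    (fun w m => (Finset.mem_filter.1 m).2)
    fun w m e => Finset.mem_filter.2 ⟨b w (hs m) (.inl e), m⟩]
  exact (Finset.sum_le_sum fun w _ => h1 _).trans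
    (Finset.sum_le_sum_of_subset_of_nonneg (Finset.filter_subset _ _) fun w m n =>
      h2 w (a w m) fun c => n (Finset.mem_filter.2 ⟨m, c⟩))

theorem av_zero : av ι s 0 = 0 := by simp [av]

theorem av_sum (h : LF ι s) {J : Type*} (F : Finset J) (φ : J → C_c(V, ℝ)) :
    av ι s (∑ j ∈ F, φ j) = ∑ j ∈ F, av ι s (φ j) := by
  classical
  induction F using Finset.induction_on with
  | empty => simp [av_zero]
  | insert a F ha ih => rw [Finset.sum_insert ha, Finset.sum_insert ha, av_add h, ih]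

theorem av_abs (h : LF ι s) (φ : C_c(V, ℝ)) : |av ι s φ| ≤ av ι s (absC φ) := by
  obtain ⟨F, a, b⟩ := h.ex φ φ
  rw [av_eq F a fun w m e => b w m (.inl e),
    av_eq F a fun w m e => b w m (.inl (abs_ne_zero.1 e))]
  exact Finset.abs_sum_le_sum_abs _ _

theorem av_map (e : W ≃ W) (τ : V ≃ₜ V) (he : ∀ w, ι (e w) = τ (ι w))
    (hs : ∀ w, w ∈ s ↔ e w ∈ s') : av ι s (compH φ τ) = av ι s' φ :=
  finsum_mem_eq_of_bijOn e (e.bijOn fun w => (hs w).symm) fun w _ => by rw [compH_apply, he]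

end av

variable {V : Type*} [TopologicalSpace V] [LocallyCompactSpace V] [T2Space V] [MeasurableSpace V]
  [BorelSpace V]

/-- The limit of positive functionals along an ultrafilter. -/
theorem lim_fun {T : Type*} (U : Ultrafilter T) (L : T → C_c(V, ℝ) → ℝ)
    (h1 : ∀ t φ ψ, L t (φ + ψ) = L t φ + L t ψ) (h2 : ∀ t (r : ℝ) φ, L t (r • φ) = r * L t φ)
    (h3 : ∀ t (φ ψ : C_c(V, ℝ)), (∀ x, φ x ≤ ψ x) → L t φ ≤ L t ψ)
    (hb : ∀ φ, ∃ M, ∀ᶠ t in (U : Filter T), |L t φ| ≤ M) :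
    ∃ m : Measure V, m.Regular ∧ ∀ φ, Tendsto (fun t => L t φ) U (𝓝 (∫ x, φ x ∂m)) := by
  have hlim : ∀ φ, ∃ y : ℝ, Tendsto (fun t => L t φ) U (𝓝 y) := fun φ => by
    obtain ⟨M, hM⟩ := hb φ
    obtain ⟨y, -, hy⟩ := (isCompact_Icc (a := -M) (b := M)).ultrafilter_le_nhds
      (U.map fun t => L t φ) (le_principal_iff.2 (hM.mono fun a h => abs_le.mp h))
    exact ⟨y, hy⟩
  choose Y hY using hlim
  let Λ : C_c(V, ℝ) →ₚ[ℝ] ℝ :=
    { toFun := Y
      map_add' := fun φ ψ => tendsto_nhds_unique (hY (φ + ψ))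
        (((hY φ).add (hY ψ)).congr fun t => (h1 t φ ψ).symm)
      map_smul' := fun r φ => tendsto_nhds_unique (hY (r • φ))
        (((hY φ).const_mul r).congr fun t => (h2 t r φ).symm)
      monotone' := fun φ ψ h => le_of_tendsto_of_tendsto' (hY φ) (hY ψ) fun t => h3 t φ ψ h }
  refine ⟨RealRMK.rieszMeasure Λ, inferInstance, fun φ => ?_⟩
  rw [RealRMK.integral_rieszMeasure]
  exact hY φ

theorem map_eq_of {m m' : Measure V} [m.Regular] [m'.Regular] (τ : V ≃ₜ V)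
    (h : ∀ φ : C_c(V, ℝ), ∫ x, compH φ τ x ∂m = ∫ x, φ x ∂m') : m.map τ = m' := by
  have : (m.map τ).Regular := Measure.Regular.map τ
  refine Measure.ext_of_integral_eq_on_compactlySupported fun φ => ?_
  rw [← h]
  exact integral_map τ.measurable.aemeasurable (f := fun x => φ x) φ.continuous.aestronglyMeasurable

variable [SecondCountableTopology V]

/-- Densities of measures which are dominated by an invariant measure. -/
theorem dens {Γ A : Type*} (ν : Measure V) [ν.Regular] (m : A → Measure V) [∀ a, (m a).Regular]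
    (hle : ∀ a, m a ≤ ν) (τ : Γ → V ≃ₜ V) (σ : Γ → A → A) (h0 : ∀ γ, ν.map (τ γ) = ν)
    (h1 : ∀ γ a, (m a).map (τ γ) = m (σ γ a)) :
    ∃ ψ : A → V → ℝ, (∀ a, Measurable (ψ a)) ∧ (∀ a x, |ψ a x| ≤ 1) ∧
      (∀ γ a, ∀ᵐ x ∂ν, ψ (σ γ a) (τ γ x) = ψ a x) ∧
      ∀ a (φ : C_c(V, ℝ)), ∫ x, φ x ∂(m a) = ∫ x, ψ a x * φ x ∂ν := by
  let E : A → V → ℝ≥0∞ := fun a => (m a).rnDeriv ν
  have hE : ∀ a, Measurable (E a) := fun a => Measure.measurable_rnDeriv _ _
  have hm : ∀ a, ν.withDensity (E a) = m a := fun a =>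
    Measure.withDensity_rnDeriv_eq _ _ (Measure.absolutelyContinuous_of_le (hle a))
  have hC : ∀ a, ∀ᵐ x ∂ν, E a x ≤ 1 := fun a => Measure.rnDeriv_le_one_of_le (hle a)
  refine ⟨fun a x => (min (E a x) 1).toReal, fun a => ((hE a).min measurable_const).ennreal_toReal,
    fun a x => ?_, fun γ a => ?_, fun a φ => ?_⟩
  · rw [abs_of_nonneg ENNReal.toReal_nonneg]
    exact ENNReal.toReal_le_of_le_ofReal zero_le_one (by simp)
  · have e := h1 γ a
    rw [← hm, ← hm (σ γ a), map_withDensity_homeo ν _ (h0 γ) (hE a)] at e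
    have h2 := (withDensity_eq_iff_of_sigmaFinite ((hE a).comp
      (τ γ).symm.measurable).aemeasurable (hE _).aemeasurable).mp e
    filter_upwards [(⟨(τ γ).measurable, h0 γ⟩ :
      MeasurePreserving (τ γ) ν ν).quasiMeasurePreserving.ae h2] with x hx
    rw [← hx, Function.comp_apply, Homeomorph.symm_apply_apply]
  · rw [← hm a, integral_withDensity_eq_integral_toReal_smul (hE a)]
    · refine integral_congr_ae ?_
      filter_upwards [hC a] with x hx
      rw [min_eq_left hx, smul_eq_mul]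
    · filter_upwards [hC a] with x hx
      exact hx.trans_lt ENNReal.one_lt_top

variable [AddCommGroup V] [IsTopologicalAddGroup V] {W T : Type*} [AddCommGroup W]
  {ι : W →+ V} {Λ : T → AddSubgroup W} {l : Filter T}

omit [LocallyCompactSpace V] [T2Space V] [MeasurableSpace V] [BorelSpace V]
  [SecondCountableTopology V] in
theorem av_shift (t : T) {w : W} (hw : w ∈ Λ t) (φ : C_c(V, ℝ)) :
    av ι (Λ t) (compH φ (Homeomorph.addLeft (ι w))) = av ι (Λ t) φ :=
  av_map (Equiv.addLeft w) _ (fun x => map_add ι w x) fun x => ((Λ t).add_mem_cancel_left hw).symm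

omit [LocallyCompactSpace V] [T2Space V] [MeasurableSpace V] [BorelSpace V]
  [SecondCountableTopology V] in
theorem av_bd (hf : ∀ t, LF ι (Λ t)) (hev : ∀ w, ∀ᶠ t in l, w ∈ Λ t) (hd : DenseRange ι)
    {φ0 : C_c(V, ℝ)} (h0 : ∀ x, 0 ≤ φ0 x) (h1 : ∃ x, φ0 x ≠ 0) :
    (∀ᶠ t in l, 0 < av ι (Λ t) φ0) ∧
      ∀ φ : C_c(V, ℝ), ∃ M, ∀ᶠ t in l, av ι (Λ t) (absC φ) ≤ M * av ι (Λ t) φ0 := by
  obtain ⟨x0, hx⟩ := h1
  have p : 0 < φ0 x0 / 2 := half_pos ((h0 x0).lt_of_ne' hx)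
  have o : ∀ w : W, IsOpen {x | φ0 x0 / 2 < φ0 (ι w + x)} := fun w =>
    isOpen_lt continuous_const (φ0.continuous.comp (continuous_const.add continuous_id))
  have cov : ∀ x, ∃ w : W, φ0 x0 / 2 < φ0 (ι w + x) := fun x =>
    hd.exists_mem_open (s := {y | φ0 x0 / 2 < φ0 (y + x)})
      (isOpen_lt continuous_const (φ0.continuous.comp (continuous_id.add continuous_const)))
      ⟨x0 - x, by simpa using (h0 x0).lt_of_ne' hx⟩
  refine ⟨?_, fun φ => ?_⟩
  · obtain ⟨w, hw⟩ := cov 0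
    filter_upwards [hev w] with t ht
    refine lt_of_lt_of_le ?_ (av_mono (s := {w}) (φ := φ0) (hf t) (by simpa using ht)
      (fun _ => le_rfl) fun _ _ _ => h0 _)
    rw [av, finsum_mem_singleton]
    exact p.trans (by simpa using hw)
  · obtain ⟨F, hF⟩ := φ.hasCompactSupport.isCompact.elim_finite_subcover _ o
      fun x _ => mem_iUnion.2 (cov x)
    obtain ⟨B, hB⟩ := φ.continuous.bounded_above_of_compact_support φ.hasCompactSupport
    have B0 : 0 ≤ B := (norm_nonneg _).trans (hB 0)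
    refine ⟨B / (φ0 x0 / 2) * F.card, ?_⟩
    filter_upwards [(eventually_all_finset F).2 fun w _ => hev w] with t ht
    have k := av_mono (φ := absC φ) (ψ := (B / (φ0 x0 / 2)) •
      ∑ w ∈ F, compH φ0 (Homeomorph.addLeft (ι w))) (hf t) le_rfl (fun x => ?_)
      fun w a b => (b a).elim
    · rw [av_smul (hf t), av_sum (hf t),
        Finset.sum_congr rfl fun w m => av_shift t (ht w m) φ0] at k
      simpa [mul_assoc] using k
    · have e : ((B / (φ0 x0 / 2)) • ∑ w ∈ F, compH φ0 (Homeomorph.addLeft (ι w))) x =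
          B / (φ0 x0 / 2) * ∑ w ∈ F, φ0 (ι w + x) := by
        rw [CompactlySupportedContinuousMap.smul_apply, CompactlySupportedContinuousMap.sum_apply]
        rfl
      rw [e, absC_apply]
      by_cases m : x ∈ tsupport φ
      · obtain ⟨w, a, b⟩ := mem_iUnion₂.1 (hF m)
        have c : φ0 x0 / 2 ≤ ∑ w ∈ F, φ0 (ι w + x) :=
          b.le.trans (Finset.single_le_sum (f := fun w => φ0 (ι w + x)) (fun _ _ => h0 _) a)
        calc |φ x| ≤ B := hB x
          _ = B / (φ0 x0 / 2) * (φ0 x0 / 2) := (div_mul_cancel₀ _ p.ne').symm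
          _ ≤ _ := by gcongr
      · rw [image_eq_zero_of_notMem_tsupport m, abs_zero]
        exact mul_nonneg (div_nonneg B0 p.le) (Finset.sum_nonneg fun _ _ => h0 _)

/-- **Equidistribution of the colours of the lattice points.** -/
theorem lat_lim (hf : ∀ t, LF ι (Λ t)) (hev : ∀ w, ∀ᶠ t in l, w ∈ Λ t) (hd : DenseRange ι)
    {Γ Q A : Type*} [Group Q] [MulAction Q A] (c : Γ → Q) (e : Γ → W ≃ W) (τ : Γ → V ≃ₜ V)
    (he : ∀ γ w, ι (e γ w) = τ γ (ι w)) (hΛ : ∀ γ t w, w ∈ Λ t ↔ e γ w ∈ Λ t) (col : W → A)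
    (hcol : ∀ γ w, col (e γ w) = c γ • col w) {X0 : Set V} (ρ : Q)
    (hM : ∀ (ν : Measure V) [ν.IsAddHaarMeasure] (ψ : A → V → ℝ), (∀ a, Measurable (ψ a)) →
      (∀ a x, |ψ a x| ≤ 1) → (∀ γ a, ∀ᵐ x ∂ν, ψ (c γ • a) (τ γ x) = ψ a x) →
      ∀ a, ∀ᵐ x ∂ν, x ∈ X0 → ψ (ρ • a) x = ψ a x)
    {φ0 : C_c(V, ℝ)} (h0 : ∀ x, 0 ≤ φ0 x) (h1 : ∃ x, φ0 x ≠ 0) (φ : C_c(V, ℝ))
    (hφ : ∀ x ∉ X0, φ x = 0) (a : A) :
    Tendsto (fun t => (av ι {w | w ∈ Λ t ∧ col w = ρ • a} φ - av ι {w | w ∈ Λ t ∧ col w = a} φ) /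
      av ι (Λ t) φ0) l (𝓝 0) := by
  obtain ⟨pos, bd⟩ := av_bd hf hev hd h0 h1
  have nn : ∀ t, 0 ≤ av ι (Λ t) φ0 := fun t => by
    rw [← av_zero (ι := ι) (s := Λ t)]
    exact av_mono (hf t) le_rfl h0 fun w a b => (b a).elim
  rw [tendsto_iff_ultrafilter]
  intro U hU
  have ex : ∀ s : T → Set W, (∀ t, s t ⊆ Λ t) → ∃ m : Measure V, m.Regular ∧
      ∀ φ, Tendsto (fun t => av ι (s t) φ / av ι (Λ t) φ0) U (𝓝 (∫ x, φ x ∂m)) := fun s hs =>
    lim_fun U _ (fun t φ ψ => by rw [av_add ((hf t).mono (hs t)), add_div])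
      (fun t r φ => by rw [av_smul ((hf t).mono (hs t)), mul_div_assoc])
      (fun t φ ψ h => div_le_div_of_nonneg_right
        (av_mono ((hf t).mono (hs t)) le_rfl h fun w a b => (b a).elim) (nn t)) fun φ => by
      obtain ⟨M, hM⟩ := bd φ
      refine ⟨M, ?_⟩
      filter_upwards [hU hM, hU pos] with t a b
      rw [abs_div, abs_of_pos b, div_le_iff₀ b]
      exact ((av_abs ((hf t).mono (hs t)) φ).trans (av_mono (hf t) (hs t) (fun _ => le_rfl)
        fun _ _ _ => abs_nonneg _)).trans a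
  obtain ⟨ν, hν, lν⟩ := ex (fun t => Λ t) fun _ => le_rfl
  choose m hm lm using fun a => ex (fun t => {w | w ∈ Λ t ∧ col w = a}) fun _ _ h => h.1
  have i1 : ∫ x, φ0 x ∂ν = 1 := tendsto_nhds_unique (lν φ0)
    (tendsto_const_nhds.congr' ((pos.filter_mono hU).mono fun t h => (div_self h.ne').symm))
  have : NeZero ν := ⟨by rintro rfl; simp at i1⟩
  have : ν.IsAddLeftInvariant := ⟨fun y => map_eq_of (Homeomorph.addLeft y) fun φ => by
    have c : Continuous fun y => ∫ x, φ (y + x) ∂ν := by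
      have := (continuous_integral_apply_neg_add (μ := ν) (g := fun z => φ (-z))
        (φ.continuous.comp continuous_neg)
        (φ.hasCompactSupport.comp_homeomorph (Homeomorph.neg V))).comp continuous_neg
      simpa [Function.comp_def] using this
    refine hd.induction_on (p := fun y => ∫ x, φ (y + x) ∂ν = ∫ x, φ x ∂ν) y
      (isClosed_eq c continuous_const) fun w => ?_
    exact tendsto_nhds_unique (lν (compH φ (Homeomorph.addLeft (ι w))))
      ((lν φ).congr' (((hev w).filter_mono hU).mono fun t h => by simp only [av_shift t h]))⟩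
  have : ν.IsAddHaarMeasure := {}
  obtain ⟨ψ, p1, p2, p3, p4⟩ := dens ν m (fun a => by
      have := le_smul_of_integral_le (m := m a) (μ := ν) 1 fun φ h => by
        rw [NNReal.coe_one, one_mul]
        exact le_of_tendsto_of_tendsto' (lm a φ) (lν φ) fun t => div_le_div_of_nonneg_right
          (av_mono (hf t) (fun _ h => h.1) (fun _ => le_rfl) fun _ _ _ => h _) (nn t)
      rwa [one_smul] at this) τ (fun γ a => c γ • a)
    (fun γ => map_eq_of _ fun φ => tendsto_nhds_unique (lν _)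
      ((lν φ).congr fun t => by rw [av_map (e γ) (τ γ) (he γ) (hΛ γ t)]))
    fun γ a => map_eq_of _ fun φ => tendsto_nhds_unique (lm a _) ((lm _ φ).congr fun t => by
      rw [av_map (s := {w | w ∈ Λ t ∧ col w = a}) (s' := {w | w ∈ Λ t ∧ col w = c γ • a}) (e γ)
        (τ γ) (he γ) fun w => and_congr (hΛ γ t w) (by rw [hcol, smul_left_cancel_iff])])
  have hall : ∫ x, φ x ∂(m (ρ • a)) = ∫ x, φ x ∂(m a) := by
    rw [p4, p4]
    refine integral_congr_ae ?_
    filter_upwards [hM ν ψ p1 p2 p3 a] with x hx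
    by_cases h : x ∈ X0
    · rw [hx h]
    · rw [hφ x h, mul_zero, mul_zero]
  have k := (lm (ρ • a) φ).sub (lm a φ)
  rw [hall, sub_self] at k
  exact k.congr fun t => (sub_div _ _ _).symm

end Vale.Agent.P011UN
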