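import Vale.Agent.P011UN.Ring
import Vale.Agent.P011.H966.NE

/-!
Fractional linear maps, the base point, and the approximate invariance of the laws of the pairs.
-/

open MeasureTheory Filter Topology Set Matrix
open scoped CompactlySupported

namespace Vale.Agent.P011UN

open Vale.Agent.P011 Vale.Agent.P011.H210 Vale.Agent.P011.H83 Vale.Agent.P011.H722

variable {D : Type} [DivisionRing D]

/-- The fractional linear map. -/
def mob (M : Matrix (Fin 2) (Fin 2) D) (y : D) : D := (M 0 0 * y + M 0 1) * (M 1 0 * y + M 1 1)⁻¹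

/-- The linear map on pairs. -/
def mm {N : Type} [AddCommGroup N] [Module D N] (M : Matrix (Fin 2) (Fin 2) D) (x : N × N) :
    N × N := (M 0 0 • x.1 + M 0 1 • x.2, M 1 0 • x.1 + M 1 1 • x.2)

theorem mm_inv {N : Type} [AddCommGroup N] [Module D N] (M : GL (Fin 2) D) (x : N × N) :
    mm M.1 (mm M⁻¹.1 x) = x := by
  have h : ∀ i j, M.1 i 0 * M⁻¹.1 0 j + M.1 i 1 * M⁻¹.1 1 j =
      (1 : Matrix (Fin 2) (Fin 2) D) i j := fun i j => by
    rw [← M.mul_inv, mul_apply, Fin.sum_univ_two]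
  have k : ∀ i, M.1 i 0 • (M⁻¹.1 0 0 • x.1 + M⁻¹.1 0 1 • x.2) +
      M.1 i 1 • (M⁻¹.1 1 0 • x.1 + M⁻¹.1 1 1 • x.2) =
      (1 : Matrix (Fin 2) (Fin 2) D) i 0 • x.1 + (1 : Matrix (Fin 2) (Fin 2) D) i 1 • x.2 :=
      fun i => by
    rw [← h, ← h]
    simp only [smul_add, add_smul, mul_smul]
    abel
  exact Prod.ext ((k 0).trans (by simp)) ((k 1).trans (by simp))

theorem mm_quot (M : Matrix (Fin 2) (Fin 2) D) {w : D × D} (h : w.2 ≠ 0) :
    (mm M w).1 * (mm M w).2⁻¹ = mob M (w.1 * w.2⁻¹) := by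
  have k : ∀ a b : D, a * (w.1 * w.2⁻¹) + b = (a * w.1 + b * w.2) * w.2⁻¹ := fun a b => by
    rw [add_mul, mul_assoc, mul_inv_cancel_right₀ h]
  rw [mob, k, k, _root_.mul_inv_rev, inv_inv, mul_assoc, inv_mul_cancel_left₀ h]
  rfl

variable {ι F : Type} [Fintype ι] [DecidableEq ι] [NontriviallyNormedField F]
  {f : D →+* Matrix ι ι F} {σ : D}

theorem comm_of [Nonempty ι] (hσ : f σ ∈ SR ι F) {x y : D} (hx : Commute x σ) (hy : Commute y σ) :
    Commute x y := by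
  obtain ⟨P, a, ha, e⟩ := hσ
  refine f.injective ?_
  rw [psi_diag ha e (hx.mul_left hy), psi_diag ha e (hy.mul_left hx)]
  simp only [psi_mul ha e hx hy, psi_mul ha e hy hx, mul_comm]

theorem ex_gl [Nonempty ι] (hσ : f σ ∈ SR ι F) {a b c d : D} (ha : Commute a σ) (hb : Commute b σ)
    (hc : Commute c σ) (hd : Commute d σ) (h : a * d - b * c ≠ 0) :
    ∃ M : GL (Fin 2) D, M.1 = !![a, b; c, d] := by
  have k : ∀ {x : D}, Commute x σ → x * (a * d - b * c)⁻¹ = (a * d - b * c)⁻¹ * x := fun hx =>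
    comm_of hσ hx ((ha.mul_left hd).sub_left (hb.mul_left hc)).inv_left₀
  set δ := (a * d - b * c)⁻¹
  have e : δ * (a * d - b * c) = 1 := inv_mul_cancel₀ h
  refine ⟨⟨_, !![δ * d, -(δ * b); -(δ * c), δ * a], ?_, ?_⟩, rfl⟩
  · rw [mul_fin_two, one_fin_two]
    simp only [mul_neg, ← mul_assoc, k ha, k hb, k hc, k hd]
    simp only [mul_assoc, (comm_of hσ hb ha).eq, (comm_of hσ hd hc).eq, (comm_of hσ hd ha).eq,
      (comm_of hσ hc hb).eq, neg_add_cancel, add_neg_cancel]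
    rw [← sub_eq_add_neg, neg_add_eq_sub, ← mul_sub, e]
  · rw [mul_fin_two, one_fin_two]
    simp only [neg_mul, mul_assoc, (comm_of hσ hd hb).eq, (comm_of hσ hc ha).eq,
      (comm_of hσ hd ha).eq, (comm_of hσ hc hb).eq, neg_add_cancel, add_neg_cancel]
    rw [← sub_eq_add_neg, neg_add_eq_sub, ← mul_sub, e]

open MvPolynomial in
theorem ex_vec {J : Type} [Finite J] (A B C E : J → ι → F)
    (h : ∀ i j, A i j * E i j - B i j * C i j ≠ 0) : ∃ u : ι → F, ∀ i, (∀ j, C i j * u j + E i j ≠ 0) ∧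
      Function.Injective fun j => (A i j * u j + B i j) / (C i j * u j + E i j) := by
  classical
  have := Fintype.ofFinite J
  let L : F → F → ι → MvPolynomial ι F := fun a b j => MvPolynomial.C a * X j + MvPolynomial.C b
  let Q : J × ι × ι → MvPolynomial ι F := fun p => if p.2.1 = p.2.2 then
    L (C p.1 p.2.1) (E p.1 p.2.1) p.2.1 else
      L (A p.1 p.2.1) (B p.1 p.2.1) p.2.1 * L (C p.1 p.2.2) (E p.1 p.2.2) p.2.2 -
        L (A p.1 p.2.2) (B p.1 p.2.2) p.2.2 * L (C p.1 p.2.1) (E p.1 p.2.1) p.2.1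
  have hQ : ∀ p, Q p ≠ 0 := by
    rintro ⟨i, j, j'⟩ h0
    by_cases hj : j = j'
    · have a := congrArg (eval fun _ => 0) h0
      have b := congrArg (eval fun _ => 1) h0
      simp only [Q, L, if_pos hj, map_add, map_mul, eval_C, eval_X, map_zero, mul_zero, zero_add,
        mul_one] at a b
      exact h i j (by rw [a, add_zero] at b; rw [a, b, mul_zero, mul_zero, sub_zero])
    · obtain ⟨t, t', ht⟩ := exists_ne_of_det (h i j) (h i j')
      have a := congrArg (eval fun x => if x = j then t else t') h0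
      simp only [Q, L, if_neg hj, if_neg (Ne.symm hj), map_sub, map_add, map_mul, eval_C, eval_X,
        map_zero, if_true] at a
      exact ht a
  obtain ⟨u, hu⟩ : ∃ u, eval u (∏ p, Q p) ≠ 0 := by
    by_contra c
    push Not at c
    exact Finset.prod_ne_zero_iff.2 (fun p _ => hQ p) (MvPolynomial.funext fun x => by
      rw [c, map_zero])
  rw [map_prod, Finset.prod_ne_zero_iff] at hu
  have n : ∀ i j, C i j * u j + E i j ≠ 0 := fun i j => by
    simpa [Q, L] using hu (i, j, j) (Finset.mem_univ _)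
  refine ⟨u, fun i => ⟨n i, fun j j' e => ?_⟩⟩
  by_contra hj
  have a := hu (i, j, j') (Finset.mem_univ _)
  simp only [Q, L, if_neg hj, map_sub, map_add, map_mul, eval_C, eval_X] at a
  exact a (sub_eq_zero.2 ((div_eq_div_iff (n i j) (n i j')).1 e))

/-- The linear map on pairs of matrices. -/
def mF (f : D →+* Matrix ι ι F) (M : Matrix (Fin 2) (Fin 2) D) (p : Matrix ι ι F × Matrix ι ι F) :
    Matrix ι ι F × Matrix ι ι F :=
  (f (M 0 0) * p.1 + f (M 0 1) * p.2, f (M 1 0) * p.1 + f (M 1 1) * p.2)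

/-- The good pairs. -/
def OS (f : D →+* Matrix ι ι F) (σ : D) {J : Type} (M : J → Matrix (Fin 2) (Fin 2) D) :
    Set (Matrix ι ι F × Matrix ι ι F) :=
  {p | p.2.det ≠ 0 ∧ p.1 * p.2⁻¹ ∈ {Y | Y * f σ ≠ f σ * Y}} ∩ ⋂ j, mF f (M j) ⁻¹' XS ι F

theorem open_OS [CompleteSpace F] {J : Type} [Finite J] (M : J → Matrix (Fin 2) (Fin 2) D) :
    IsOpen (OS f σ M) :=
  (open_quot (isOpen_ne_fun (by fun_prop) (by fun_prop))).inter (isOpen_iInter_of_finite fun j =>
    (open_quot isOpen_SR).preimage (by unfold mF; fun_prop))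

theorem base [CompleteSpace F] [Nontrivial ι] (hf : DenseRange f) (hσ : f σ ∈ SR ι F) {J : Type}
    [Finite J] (M : J → Matrix (Fin 2) (Fin 2) D) (hM : ∀ j a b, Commute (M j a b) σ)
    (hd : ∀ j, M j 0 0 * M j 1 1 - M j 0 1 * M j 1 0 ≠ 0) : ∃ y, (f y, 1) ∈ OS f σ M := by
  obtain ⟨P, a, ha, e⟩ := hσ
  obtain ⟨u, hu⟩ := ex_vec (fun j i => psi f P i (M j 0 0)) (fun j i => psi f P i (M j 0 1))
    (fun j i => psi f P i (M j 1 0)) (fun j i => psi f P i (M j 1 1)) fun j i => by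
      have h1 := psi_add (f := f) (P := P) i (M j 0 0 * M j 1 1 - M j 0 1 * M j 1 0)
        (M j 0 1 * M j 1 0)
      rw [sub_add_cancel, psi_mul ha e (hM _ _ _) (hM _ _ _), psi_mul ha e (hM _ _ _) (hM _ _ _)]
        at h1
      rw [h1, add_sub_cancel_right]
      exact psi_ne_zero ha e (((hM _ _ _).mul_left (hM _ _ _)).sub_left
        ((hM _ _ _).mul_left (hM _ _ _))) (hd j) i
  let cj : (ι → F) → Matrix ι ι F := fun x => P.1 * diagonal x * P⁻¹.1
  have k : ∀ x y, cj x * cj y = cj (fun i => x i * y i) := fun x y => by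
    simp only [cj, ← diagonal_mul_diagonal, mul_assoc, Units.inv_mul_cancel_left]
  have k1 : ∀ x y : D, Commute x σ → Commute y σ → f x * cj u + f y * 1 =
      cj fun i => psi f P i x * u i + psi f P i y := fun x y hx hy => by
    rw [psi_diag ha e hx, psi_diag ha e hy, mul_one]
    refine (congrArg (· + _) (k _ u)).trans ?_
    simp only [cj, ← diagonal_add, mul_add, add_mul]
  have o : IsOpen {Y | (Y, 1) ∈ ⋂ j, mF f (M j) ⁻¹' XS ι F} :=
    (isOpen_iInter_of_finite fun j => (open_quot isOpen_SR).preimage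
      (by unfold mF; fun_prop)).preimage (Continuous.prodMk_left 1)
  have m : (cj u, 1) ∈ ⋂ j, mF f (M j) ⁻¹' XS ι F := mem_iInter.2 fun j => by
    have i : cj (fun i => psi f P i (M j 1 0) * u i + psi f P i (M j 1 1)) *
        cj (fun i => (psi f P i (M j 1 0) * u i + psi f P i (M j 1 1))⁻¹) = 1 := by
      rw [k]
      simp [cj, mul_inv_cancel₀ ((hu j).1 _)]
    change (_ : Matrix ι ι F).det ≠ 0 ∧ _ * _⁻¹ ∈ SR ι F
    simp only [mF]
    rw [k1 _ _ (hM _ _ _) (hM _ _ _), k1 _ _ (hM _ _ _) (hM _ _ _), inv_eq_right_inv i, k]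
    exact ⟨(isUnit_det_of_right_inverse i).ne_zero, P, _, by
      simpa only [div_eq_mul_inv] using (hu j).2, rfl⟩
  obtain ⟨Y, a1, a2⟩ : ∃ Y, (Y, 1) ∈ (⋂ j, mF f (M j) ⁻¹' XS ι F) ∧ Y * f σ ≠ f σ * Y := by
    by_contra c
    push Not at c
    have t := (LinearMap.ker (LinearMap.mulRight F (f σ) -
      LinearMap.mulLeft F (f σ))).eq_top_of_nonempty_interior'
        ⟨_, interior_maximal (fun Y hY => sub_eq_zero.2 (c Y hY)) o m⟩
    obtain ⟨i, j, hij⟩ := exists_pair_ne ι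
    have s : P.1 * single i j 1 * P⁻¹.1 * f σ = f σ * (P.1 * single i j 1 * P⁻¹.1) :=
      sub_eq_zero.1 (t.ge (Submodule.mem_top (x := P.1 * single i j 1 * P⁻¹.1)))
    rw [e] at s
    simp only [mul_assoc, Units.inv_mul_cancel_left, Units.mul_right_inj] at s
    simp only [← mul_assoc, Units.mul_left_inj] at s
    exact hij (ha (by simpa using (congrFun (congrFun s i) j).symm))
  obtain ⟨y, b1, b2⟩ := hf.exists_mem_open
    (o.inter (isOpen_ne_fun (f := fun Y => Y * f σ) (g := fun Y => f σ * Y) (by fun_prop)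
      (by fun_prop))) ⟨Y, a1, a2⟩
  exact ⟨y, ⟨by simp, by simpa using b2⟩, b1⟩

namespace Lo

variable {R G Γ T : Type} [Ring R] [TopologicalSpace R] [Group G] [TopologicalSpace G] [Group Γ]
  (H : Lo f R G Γ T)

instance : Module D H.V where
  smul a x := ⟨H.e a * x, by simpa using H.V_mul x.2 (H.e a) 1⟩
  one_smul x := Subtype.ext x.2
  mul_smul a b x := Subtype.ext (by
    change H.e (a * b) * x.1 = H.e a * (H.e b * x.1)
    rw [map_mul, mul_assoc])
  smul_zero a := Subtype.ext (mul_zero _)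
  smul_add a x y := Subtype.ext (mul_add _ _ _)
  add_smul a b x := Subtype.ext (by
    change H.e (a + b) * x.1 = H.e a * x.1 + H.e b * x.1
    rw [map_add, add_mul])
  zero_smul x := Subtype.ext (by
    change H.e 0 * x.1 = 0
    rw [map_zero, zero_mul])

theorem em_mm (M : Matrix (Fin 2) (Fin 2) D) (w : D × D) : H.em2 (mm M w) = mm M (H.em2 w) := by
  have k : ∀ a b : D, H.em (a * w.1 + b * w.2) = a • H.em w.1 + b • H.em w.2 := fun a b =>
    (map_add _ _ _).trans (congrArg₂ _ (Subtype.ext (map_mul H.e _ _))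
      (Subtype.ext (map_mul H.e _ _)))
  exact Prod.ext (k _ _) (k _ _)

theorem pr_mm (M : Matrix (Fin 2) (Fin 2) D) (x : H.V × H.V) :
    H.pr (mm M x) = mF f M (H.pr x) := by
  have k : ∀ a b : D, H.π (H.e a * x.1 + H.e b * x.2) = f a * H.π x.1 + f b * H.π x.2 :=
    fun a b => by rw [map_add, map_mul, map_mul, H.πe, H.πe]
  exact Prod.ext (k _ _) (k _ _)

theorem pr_em (w : D × D) : H.pr (H.em2 w) = (f w.1, f w.2) := Prod.ext (H.πe _) (H.πe _)

variable [IsTopologicalRing R]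

theorem mm_cont (M : Matrix (Fin 2) (Fin 2) D) : Continuous (mm M : H.V × H.V → _) := by
  have k : ∀ a : D, Continuous fun x : H.V => a • x := fun a =>
    continuous_induced_rng.2 (continuous_const.mul continuous_subtype_val)
  exact (((k _).comp continuous_fst).add ((k _).comp continuous_snd)).prodMk
    (((k _).comp continuous_fst).add ((k _).comp continuous_snd))

/-- The homeomorphism. -/
def mH (M : GL (Fin 2) D) : H.V × H.V ≃ₜ H.V × H.V where
  toFun := mm M.1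
  invFun := mm M⁻¹.1
  left_inv := mm_inv M⁻¹
  right_inv := mm_inv M
  continuous_toFun := H.mm_cont _
  continuous_invFun := H.mm_cont _

variable [IsTopologicalGroup G] [T2Space R] [LocallyCompactSpace R] [SecondCountableTopology R]
  [LocallyCompactSpace G] [T2Space G] [SecondCountableTopology G] [Nontrivial ι] [ProperSpace F]

/-- **The approximately invariant mean.** -/
theorem ne_lo (hf : DenseRange f) (hσ : f σ ∈ SR ι F) {Q : Type*} [Group Q] [Finite Q]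
    (c : Γ →* Q) (κ : D → Q) (hκ : ∀ γ y, κ (H.d γ * y * H.d γ⁻¹) = c γ * κ y * (c γ)⁻¹)
    {X : Type*} (pt : X → D) (hX : ∀ y, y * σ ≠ σ * y → ∃ x, pt x = y) {J : Type} [Finite J]
    (M : J → GL (Fin 2) D) (hM : ∀ j a b, Commute ((M j).1 a b) σ)
    (hd : ∀ j, (M j).1 0 0 * (M j).1 1 1 - (M j).1 0 1 * (M j).1 1 0 ≠ 0)
    (hΛ : ∀ j a b t, ∀ x ∈ H.Λ t, (M j).1 a b * x ∈ H.Λ t ∧ (M j)⁻¹.1 a b * x ∈ H.Λ t)
    (z : J → D) (hz : ∀ j y, z j * y = y * z j) (ρ a a' : J → Q)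
    (hρ : ∀ j, ∀ O ∈ 𝓝 (1 : G), ∃ γ : Γ, c γ = ρ j ∧ ∃ o ∈ O, ∃ s, H.i γ = o * H.j s)
    {ε : ℝ} (hε : 0 < ε) : ∃ l : (X → ℝ) → ℝ, IsMean l ∧ ∀ j,
      |mset l {x | κ (mob (M j).1 (pt x)) = ρ j * a j * (ρ j)⁻¹ ∧
          κ (mob (M j).1 (pt x) + z j) = ρ j * a' j * (ρ j)⁻¹} -
        mset l {x | κ (mob (M j).1 (pt x)) = a j ∧ κ (mob (M j).1 (pt x) + z j) = a' j}| ≤ ε := by
  classical
  have := H.ne
  obtain ⟨y0, hy⟩ := base hf hσ (fun j => (M j).1) hM hd
  obtain ⟨g, g1, g2, g3, g4⟩ := exists_continuousMap_one_of_isCompact_subset_isOpen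
    (isCompact_singleton (x := H.em2 (y0, 1)))
    ((open_OS (f := f) (σ := σ) fun j => (M j).1).preimage H.pr_cont)
    (singleton_subset_iff.2 (by rw [mem_preimage, pr_em, map_one]; exact hy))
  let φ0 : C_c(H.V × H.V, ℝ) := ⟨g, g2⟩
  have h0 : ∀ x, 0 ≤ φ0 x := fun x => (g4 x).1
  have h1 : ∃ x, φ0 x ≠ 0 := ⟨_, (g1 (mem_singleton _)).trans_ne one_ne_zero⟩
  have h2 : ∀ x, φ0 x ≠ 0 → H.pr x ∈ OS f σ fun j => (M j).1 := fun x h =>
    g3 (subset_tsupport _ h)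
  have : Finite (ConjAct Q) := ‹Finite Q›
  have lim := fun j => H.lim (A := Q × Q)
    ((ConjAct.toConjAct : Q ≃* ConjAct Q).toMonoidHom.comp c) (fun y => (κ y, κ (y + z j)))
    (fun γ y => Prod.ext (hκ γ y) ((congrArg κ (by
      rw [mul_add, add_mul, ← hz, mul_assoc (z j), ← Units.val_mul, ← map_mul, mul_inv_cancel,
        map_one, Units.val_one, mul_one])).trans (hκ γ (y + z j))))
    (ρ := ConjAct.toConjAct (ρ j)) (fun O hO => (hρ j O hO).imp fun γ h =>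
      ⟨congrArg ConjAct.toConjAct h.1, h.2⟩) h0 h1 (compH φ0 (H.mH (M j)).symm)
    (fun x hx => by
      by_contra n
      have := mem_iInter.1 (h2 _ n).2 j
      rw [mem_preimage, ← pr_mm] at this
      exact hx (mm_inv (M j) x ▸ this)) (a j, a' j)
  obtain ⟨t, p, ht⟩ := ((av_bd H.lf2 H.ev2 H.dense2 h0 h1).1.and (eventually_all.2 fun j =>
    (lim j).eventually (Metric.closedBall_mem_nhds 0 hε))).exists
  obtain ⟨Fs, s1, s2⟩ := (H.lf2 t).ex φ0 φ0
  have nc : ∀ w : D × D, φ0 (H.em2 w) ≠ 0 → w.2 ≠ 0 ∧ ∃ x, pt x = w.1 * w.2⁻¹ := fun w h => by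
    obtain ⟨b1, b2⟩ := (h2 _ h).1
    rw [pr_em] at b1 b2
    have n : w.2 ≠ 0 := fun e => b1 (by simp [e])
    refine ⟨n, hX _ fun e => b2 ?_⟩
    rw [inv_eq_right_inv (B := f w.2⁻¹) (by rw [← map_mul, mul_inv_cancel₀ n, map_one])]
    simp only [← map_mul, e]
  obtain ⟨x0, -⟩ := (nc (y0, 1) ((g1 (mem_singleton _)).trans_ne one_ne_zero)).2
  have : Nonempty X := ⟨x0⟩
  let l : (X → ℝ) → ℝ := fun K => ∑ w ∈ Fs, φ0 (H.em2 w) / av H.em2 (H.Λ2 t) φ0 *
    K (Function.invFun pt (w.1 * w.2⁻¹))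
  have ms : ∀ j (α : Q × Q), mset l {x | κ (mob (M j).1 (pt x)) = α.1 ∧
      κ (mob (M j).1 (pt x) + z j) = α.2} = av H.em2 {w | w ∈ H.Λ2 t ∧
        (κ (w.1 * w.2⁻¹), κ (w.1 * w.2⁻¹ + z j)) = α} (compH φ0 (H.mH (M j)).symm) /
          av H.em2 (H.Λ2 t) φ0 := fun j α => by
    have st : ∀ N : GL (Fin 2) D, (∀ a b, ∀ x ∈ H.Λ t, N.1 a b * x ∈ H.Λ t) → ∀ w ∈ H.Λ2 t,
        mm N.1 w ∈ H.Λ2 t := fun N h w m =>
      ⟨add_mem (h _ _ _ m.1) (h _ _ _ m.2), add_mem (h _ _ _ m.1) (h _ _ _ m.2)⟩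
    rw [av_map (s' := {w | w ∈ H.Λ2 t ∧ (κ ((mm (M j).1 w).1 * (mm (M j).1 w).2⁻¹),
      κ ((mm (M j).1 w).1 * (mm (M j).1 w).2⁻¹ + z j)) = α})
      ⟨mm (M j)⁻¹.1, mm (M j).1, mm_inv (M j), mm_inv (M j)⁻¹⟩ _ (H.em_mm _) fun w => ?_,
      av_eq (s := {w | w ∈ H.Λ2 t ∧ (κ ((mm (M j).1 w).1 * (mm (M j).1 w).2⁻¹),
        κ ((mm (M j).1 w).1 * (mm (M j).1 w).2⁻¹ + z j)) = α})
        (Fs.filter fun w => (κ ((mm (M j).1 w).1 * (mm (M j).1 w).2⁻¹),
        κ ((mm (M j).1 w).1 * (mm (M j).1 w).2⁻¹ + z j)) = α)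
        (fun w m => ⟨s1 w (Finset.mem_filter.1 m).1, (Finset.mem_filter.1 m).2⟩)
        fun w m n => Finset.mem_filter.2 ⟨s2 w m.1 (.inl n), m.2⟩,
      Finset.sum_filter, Finset.sum_div]
    · refine Finset.sum_congr rfl fun w _ => ?_
      by_cases n : φ0 (H.em2 w) = 0
      · simp [n]
      · simp only [indicator, mem_ofPred_eq, Function.invFun_eq (nc w n).2, mm_quot _ (nc w n).1,
          Prod.ext_iff]
        split_ifs <;> simp
    · change _ ∧ _ ↔ mm (M j)⁻¹.1 w ∈ _ ∧ (κ ((mm (M j).1 (mm (M j)⁻¹.1 w)).1 * _⁻¹), _) = α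
      simp only [Equiv.coe_fn_mk, mm_inv]
      refine and_congr_left' ⟨st _ (fun a b x m => (hΛ j a b t x m).2) w, fun m => ?_⟩
      exact mm_inv (M j) w ▸ st _ (fun a b x m => (hΛ j a b t x m).1) _ m
  refine ⟨l, ⟨fun K K' _ _ => ?_, fun r K _ => ?_, fun K _ k => Finset.sum_nonneg fun w _ =>
    mul_nonneg (div_nonneg (h0 _) p.le) (k _), ?_⟩, fun j => ?_⟩
  · simp only [l, Pi.add_apply, mul_add, Finset.sum_add_distrib]
  · simp only [l, Pi.smul_apply, smul_eq_mul, Finset.mul_sum, mul_left_comm]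
  · simp only [l, Pi.one_apply, mul_one, ← Finset.sum_div]
    rw [← av_eq Fs s1 fun w m n => s2 w m (.inl n), div_self p.ne']
  · rw [ms j (ρ j * a j * (ρ j)⁻¹, ρ j * a' j * (ρ j)⁻¹), ms j (a j, a' j), ← sub_div]
    simpa [abs_div, ConjAct.toConjAct_smul] using ht j

end Lo

end Vale.Agent.P011UN
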