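import Vale.Agent.P011UT4.Kit
import Vale.Agent.P011ND.Main

/-!
The closure of a normal subgroup is open.
-/

open Matrix Filter Topology Polynomial
open scoped Matrix.Norms.Operator

namespace Vale.Agent.P011UN

open Vale.Agent.P011ND Vale.Agent.P011UT4

section loc

variable {K : Type} [NontriviallyNormedField K] [CompleteSpace K] {n α : Type} [Fintype n]
  [DecidableEq n]

theorem lie_of_deriv {D : Dt n α K} {c : K → Matrix n n K} {Y : Matrix n n K}
    (h1 : HasStrictDerivAt c Y 0) (h0 : c 0 = 1) (h2 : ∀ᶠ t in 𝓝 0, D.Stab (c t)) : D.Lie Y := by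
  have k : ∀ C : Matrix n n K, HasDerivAt (fun t => (c t)ᵀ * C * c t) (Yᵀ * C + C * Y) 0 :=
    fun C => by
      obtain ⟨L, a, b⟩ := quad_deriv C
      rw [← h0] at a
      exact b Y ▸ (a.comp_hasStrictDerivAt 0 h1).hasDerivAt
  refine ⟨fun a => (h1.hasDerivAt.mul_const _).unique
    ((h1.hasDerivAt.const_mul _).congr_of_eventuallyEq (h2.mono fun t h => h.1 a)),
    (k _).unique ((hasDerivAt_const _ _).congr_of_eventuallyEq (h2.mono fun t h => h.2.1)),
    fun a => ?_⟩
  let T : Matrix n n K →L[K] Matrix n n K := LinearMap.toContinuousLinearMap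
    { toFun := fun g => ∑ l, g a l • D.M l
      map_add' := fun x y => by simp [add_smul, Finset.sum_add_distrib]
      map_smul' := fun c x => by simp [Finset.smul_sum, smul_smul] }
  exact (T.hasFDerivAt.comp_hasDerivAt 0 h1.hasDerivAt).unique
    ((k _).congr_of_eventuallyEq (h2.mono fun t h => h.2.2 a))

theorem poly_deriv (Q : Matrix n n K[X]) (u : K) :
    HasStrictDerivAt (fun t => Q.map (eval t)) (Q.map fun q => q.derivative.eval u) u := by
  have e : ∀ f : K[X] → K, Q.map f = ∑ a, ∑ b, f (Q a b) • single a b (1 : K) := fun f => by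
    simpa [smul_single] using matrix_eq_sum_single (Q.map f)
  simp only [e]
  exact HasStrictDerivAt.fun_sum fun a _ => HasStrictDerivAt.fun_sum fun b _ =>
    ((Q a b).hasStrictDerivAt u).smul_const _

end loc

variable {k n : Type} [Field k] [Fintype n] [DecidableEq n]

/-- The rational curve over an extension. -/
noncomputable def cr (K : Type) [Field K] [Algebra k K] (d : k[X]) (P : Matrix n n k[X]) (t : K) :
    Matrix n n K := (aeval t d)⁻¹ • P.map (aeval t)

section one

variable {K : Type} [NontriviallyNormedField K] [CompleteSpace K] [Algebra k K] {d : k[X]}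
  {P : Matrix n n k[X]} {Γ : Type} [Group Γ] {r : Γ →* Matrix n n k}

omit [CompleteSpace K] [Fintype n] [DecidableEq n] in
theorem map_aeval (t : K) : P.map (aeval t) = (P.map (Polynomial.map (algebraMap k K))).map (eval t) := by
  ext a b
  simp [eval_map_algebraMap]

omit [CompleteSpace K] in
theorem cr_rat {q : k} {g : Matrix n n k} (h0 : aeval (algebraMap k K q) d ≠ 0)
    (h : d.eval q • g = P.map (eval q)) : cr K d P (algebraMap k K q) = up K g := by
  have e : P.map (aeval (algebraMap k K q)) = up K (P.map (eval q)) := by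
    ext a b
    simp [aeval_algebraMap_apply]
  rw [cr, e, ← h, map_smul, ← algebraMap_smul K (d.eval q), ← coe_aeval_eq_eval,
    ← aeval_algebraMap_apply, inv_smul_smul₀ h0]

omit [CompleteSpace K] in
theorem cr_zero (h : Crv r d P) : aeval (0 : K) d = 1 ∧ cr K d P 0 = 1 := by
  have a : aeval (algebraMap k K 0) d = 1 := by
    rw [aeval_algebraMap_apply, coe_aeval_eq_eval, h.1, map_one]
  have b := cr_rat (P := P) (g := 1) (a.trans_ne one_ne_zero) (by rw [h.1, h.2.1, one_smul])
  rw [map_zero] at a b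
  exact ⟨a, b.trans (map_one _)⟩

theorem cr_cont {t : K} (h : aeval t d ≠ 0) : ContinuousAt (cr K d P) t := by
  refine (d.continuous_aeval.continuousAt.inv₀ h).smul ?_
  simp only [map_aeval]
  exact (poly_deriv _ t).hasDerivAt.continuousAt

theorem cr_deriv (h : Crv r d P) :
    HasStrictDerivAt (cr K d P) (up K (P.map (coeff · 1) - d.coeff 1 • 1)) 0 := by
  obtain ⟨a, b⟩ := cr_zero (K := K) h
  have c := poly_deriv (P.map (Polynomial.map (algebraMap k K))) 0
  simp only [← map_aeval] at c
  refine (((hasStrictDerivAt_inv (a.trans_ne one_ne_zero)).comp 0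
    (d.hasStrictDerivAt_aeval (0 : K))).smul c).congr_deriv ?_
  rw [cr, a, inv_one, one_smul] at b
  simp only [Function.comp_apply, a, b]
  ext i j
  by_cases e : i = j <;> simp [← coeff_zero_eq_eval_zero, coeff_derivative,
    ← coeff_zero_eq_aeval_zero', sub_eq_add_neg, e, Algebra.algebraMap_eq_smul_one, add_smul]

theorem cr_stab {α : Type} {D : Dt n α k} (hd : DenseRange (algebraMap k K)) (h : Crv r d P)
    (hs : ∀ γ, D.Stab (r γ)) {t : K} (ht : aeval t d ≠ 0) :
    (D.map (algebraMap k K)).Stab (cr K d P t) := by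
  refine (Dt.isClosed_stab _).mem_of_frequently_of_tendsto ?_ (cr_cont ht)
  refine ((mem_closure_iff_frequently.1 (hd t)).and_eventually
    (d.continuous_aeval.continuousAt.eventually_ne ht)).mono ?_
  rintro _ ⟨⟨q, rfl⟩, hq⟩
  obtain ⟨γ, e⟩ := h.2.2 q fun e => hq (by
    rw [aeval_algebraMap_apply, coe_aeval_eq_eval, e, map_zero])
  rw [cr_rat hq e]
  exact (hs γ).map _

omit [CompleteSpace K] in
theorem unit_of_stab {α : Type} {D : Dt n α k} (hB : D.B.det ≠ 0) {g : Matrix n n K}
    (h : (D.map (algebraMap k K)).Stab g) : IsUnit g := by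
  have hB' : IsUnit (D.map (algebraMap k K)).B.det := by
    change IsUnit ((algebraMap k K).mapMatrix D.B).det
    rw [← RingHom.map_det]
    exact (Ne.isUnit hB).map _
  exact (isUnit_iff_isUnit_det _).2 (IsUnit.of_mul_eq_one _ (h.det hB'))

omit [CompleteSpace K] in
theorem sub_top {N : Subgroup Γ} (h : Submodule.span k (r '' N) = ⊤) (U : Submodule K (n → K))
    (hU : ∀ γ ∈ N, ∀ y ∈ U, up K (r γ) *ᵥ y ∈ U) {y : n → K} (hy : y ∈ U) (h0 : y ≠ 0) :
    ∀ z, z ∈ U := by
  have a : ∀ A : Matrix n n k, up K A *ᵥ y ∈ U := fun A => by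
    induction (h.ge Submodule.mem_top : A ∈ Submodule.span k (r '' N))
      using Submodule.span_induction with
    | mem A hA => exact hA.elim fun γ e => e.2 ▸ hU γ e.1 y hy
    | zero => simp
    | add A B _ _ a b => rw [map_add, add_mulVec]; exact add_mem a b
    | smul c A _ a => rw [map_smul, ← algebraMap_smul K, smul_mulVec]; exact U.smul_mem _ a
  obtain ⟨j, hj⟩ := Function.ne_iff.1 h0
  intro z
  rw [pi_eq_sum_univ' z]
  refine sum_mem fun i _ => U.smul_mem _ ((U.smul_mem_iff hj).1 ?_)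
  refine (congrArg (· ∈ U) ?_).mp (a (single i j 1))
  ext l
  simp [single_mulVec, Function.update_apply, Pi.single_apply, Matrix.map_single]

variable {M : n → Matrix n n k}

omit [CompleteSpace K] in
theorem ad_conj (hs : ∀ γ, (dt M).Stab (r γ)) (γ : Γ) (y : n → K) :
    up K (r γ) * adl (fun a => (M a).map (algebraMap k K)) y * up K (r γ⁻¹) =
      adl (fun a => (M a).map (algebraMap k K)) (up K (r γ) *ᵥ y) := by
  have a := (hs γ).map (algebraMap k K)
  rw [dt_map] at a
  rw [adl_apply, adl_apply, show up K (r γ) * _ = _ from (Stab.adm a y).symm, mul_assoc]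
  exact (congrArg _ ((map_mul (up K) _ _).symm.trans (by rw [Mdl.rr, map_one]))).trans (mul_one _)

omit [CompleteSpace K] in
theorem lie_mem (der : ∀ X, (dt M).Lie X → ∃ y, X = adm M y) (U : Submodule K (Matrix n n K))
    (hU : ∀ y, adl (fun a => (M a).map (algebraMap k K)) y ∈ U) {X : Matrix n n K}
    (hX : ((dt M).map (algebraMap k K)).Lie X) : X ∈ U :=
  hX.mem_of_rat U fun Y hY => (der Y hY).elim fun y e => by
    rw [e, ← adm_map]
    exact hU _

omit [CompleteSpace K] in
theorem irr (hs : ∀ γ, (dt M).Stab (r γ)) (der : ∀ X, (dt M).Lie X → ∃ y, X = adm M y)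
    {N : Subgroup Γ} (h : Submodule.span k (r '' N) = ⊤) (U : Submodule K (Matrix n n K))
    (hU : ∀ γ ∈ N, ∀ X ∈ U, up K (r γ) * X * up K (r γ⁻¹) ∈ U) {y : n → K}
    (hy : adl (fun a => (M a).map (algebraMap k K)) y ∈ U) (h0 : y ≠ 0) {X : Matrix n n K}
    (hX : ((dt M).map (algebraMap k K)).Lie X) : X ∈ U :=
  lie_mem der U (sub_top h (U.comap (adl _)) (fun γ hγ z hz => by
    rw [Submodule.mem_comap, ← ad_conj hs]
    exact hU γ hγ _ hz) hy h0) hX

end one

variable {ι Γ : Type} [Fintype ι] [DecidableEq ι] [Group Γ] {E : ι → Type}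
  [∀ i, NontriviallyNormedField (E i)] [∀ i, ProperSpace (E i)] [∀ i, Algebra k (E i)]
  {O : Subring k} {v : ι} {M : n → Matrix n n k} {r : Γ →* Matrix n n k}
  {H : Subgroup (Matrix n n (E v))ˣ} {x0 : Γ} (h : An E O v M r H x0) {d : k[X]}
  {P : Matrix n n k[X]}
include h

omit [DecidableEq ι] in
theorem cr_unit (hc : Crv r d P) {i : ι} {t : E i} (ht : aeval t d ≠ 0) : IsUnit (cr (E i) d P t) :=
  unit_of_stab h.det (cr_stab (h.pls.dense_at i) hc h.stab ht)

omit [DecidableEq ι] in
theorem cru_cont (hc : Crv r d P) {i : ι} {t : E i} (ht : aeval t d ≠ 0) :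
    ContinuousAt (fun t => toU (cr (E i) d P t)) t :=
  (toU_cont (cr_unit h hc ht)).comp (cr_cont ht)

omit [DecidableEq ι] in
theorem cr_mem (hc : Crv r d P) {s : ∀ i, E i} (hs : ∀ i, aeval (s i) d ≠ 0) :
    (fun i => toU (cr (E i) d P (s i))) ∈ (pp E r).range.topologicalClosure := by
  refine mem_closure_of_frequently_of_tendsto (f := fun (s : ∀ i, E i) i => toU (cr (E i) d P (s i)))
    ?_ (continuousAt_pi.2 fun i => (cru_cont h hc (hs i)).comp (f := fun s : ∀ i, E i => s i)
      (continuous_apply i).continuousAt)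
  refine ((mem_closure_iff_frequently.1 (h.pls.dense s)).and_eventually (eventually_all.2 fun i =>
    (d.continuous_aeval.comp (continuous_apply i)).continuousAt.eventually_ne (hs i))).mono ?_
  rintro _ ⟨⟨q, rfl⟩, hq⟩
  obtain ⟨γ, e⟩ := hc.2.2 q fun e => hq v (by
    change aeval (algebraMap k (E v) q) d = 0
    rw [aeval_algebraMap_apply, coe_aeval_eq_eval, e, map_zero])
  exact ⟨γ, _root_.funext fun i => Units.ext ((toU_val (cr_unit h hc (hq i))).trans
    (cr_rat (hq i) e)).symm⟩

theorem cr_single (hc : Crv r d P) {i : ι} {t : E i} (ht : aeval t d ≠ 0) :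
    Pi.mulSingle i (toU (cr (E i) d P t)) ∈ (pp E r).range.topologicalClosure := by
  refine (congrArg (· ∈ _) (_root_.funext fun j => ?_)).mp (cr_mem h hc (s := Pi.single i t) fun j => ?_)
  · rcases eq_or_ne j i with rfl | e
    · simp
    · rw [Pi.single_eq_of_ne e, Pi.mulSingle_eq_of_ne e, (cr_zero hc).2]
      exact Units.ext (toU_val isUnit_one)
  · rcases eq_or_ne j i with rfl | e
    · rwa [Pi.single_eq_same]
    · rw [Pi.single_eq_of_ne e, (cr_zero hc).1]
      exact one_ne_zero

/-- Openness. -/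
theorem opn_of (N : Subgroup Γ) [hN : N.Normal] (h0 : ∃ n ∈ N, r n ≠ 1) {S : Subgroup (GG E n)}
    (h1 : S ≤ St E (dt M)) (h2 : ∀ a ∈ N, ∀ m ∈ S, pp E r a * m * (pp E r a)⁻¹ ∈ S)
    (h3 : ∀ a ∈ N, ∀ᶠ g in 𝓝 1, g ∈ (pp E r).range.topologicalClosure →
      g * pp E r a * g⁻¹ * (pp E r a)⁻¹ ∈ S) : ∀ᶠ g in 𝓝 1, g ∈ St E (dt M) → g ∈ S := by
  obtain ⟨d, P, hc, hne⟩ := h.crv
  refine nbhd h1 fun i X hX => ?_
  have e1 : ∀ γ, up (E i) (r γ) * up (E i) (r γ⁻¹) = 1 := fun γ => by
    rw [← map_mul, Mdl.rr, map_one]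
  obtain ⟨z1, z2⟩ := cr_zero (K := E i) hc
  have ev := d.continuous_aeval.continuousAt.eventually_ne (z1.trans_ne one_ne_zero)
  have dv := cr_deriv (K := E i) hc
  obtain ⟨y, hy⟩ := lie_mem h.der (LinearMap.range _) (fun y => ⟨y, rfl⟩) (lie_of_deriv dv z2
    (ev.mono fun t ht => cr_stab (h.pls.dense_at i) hc h.stab ht))
  have y0 : y ≠ 0 := fun e => hne (sub_eq_zero.1 (Matrix.map_injective (algebraMap k (E i)).injective
    (hy.symm.trans (by rw [e, map_zero]; exact (map_zero (up (E i))).symm))))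
  obtain ⟨a, ha, ne⟩ : ∃ a ∈ N, y - up (E i) (r a) *ᵥ y ≠ 0 := by
    by_contra! c
    obtain ⟨a, ha, ne⟩ := h0
    have t := sub_top (h.spn ⊤ inferInstance ⟨a, trivial, ne⟩)
      (⨅ a ∈ N, LinearMap.eqLocus (up (E i) (r a)).mulVecLin LinearMap.id) (fun γ _ z hz => by
        simp only [Submodule.mem_iInf, LinearMap.mem_eqLocus, mulVecLin_apply, LinearMap.id_apply]
          at hz ⊢
        intro b hb
        conv_rhs => rw [← hz _ (hN.conj_mem' b hb γ)]
        simp only [mulVec_mulVec, ← map_mul, ← mul_assoc, mul_inv_cancel, one_mul]) (y := y) (by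
          simp only [Submodule.mem_iInf]
          exact fun b hb => (sub_eq_zero.1 (c b hb)).symm) y0
    simp only [Submodule.mem_iInf, LinearMap.mem_eqLocus, mulVecLin_apply, LinearMap.id_apply] at t
    exact ne (Matrix.map_injective (algebraMap k (E i)).injective ((toLin'.injective
      (LinearMap.ext fun z => (t z a ha).trans (one_mulVec z).symm)).trans
        (map_one (up (E i))).symm))
  refine irr h.stab h.der (h.spn N hN h0) _ (fun γ hγ Z hZ => Tan.conj (e1 γ)
    (loc_conj (h2 γ hγ) i) hZ) ?_ ne hX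
  rw [map_sub, ← ad_conj h.stab, hy]
  refine ⟨_, (((dv.mul_const (up (E i) (r a))).mul (inverse_deriv dv z2)).mul_const
    (up (E i) (r a⁻¹))).congr_deriv ?_, by
      simp only [Pi.mul_apply, z2, Ring.inverse_one, mul_one, one_mul, e1], ?_⟩
  · simp only [z2, Ring.inverse_one, mul_one, one_mul, add_mul, mul_assoc, e1, mul_neg, neg_mul,
      sub_eq_add_neg]
  · have c1 : Tendsto (fun t => (Pi.mulSingle i (toU (cr (E i) d P t)) : GG E n)) (𝓝 0) (𝓝 1) := by
      have := ((continuous_mulSingle (A := fun i => (Matrix n n (E i))ˣ) i).continuousAt.comp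
        (cru_cont h hc (z1.trans_ne one_ne_zero))).tendsto
      rwa [Function.comp_apply, z2, show toU (1 : Matrix n n (E i)) = 1 from
        Units.ext (toU_val isUnit_one), Pi.mulSingle_one] at this
    filter_upwards [ev, c1.eventually (h3 a ha)] with t ht h5
    refine ⟨toU (cr (E i) d P t) * pp E r a i * (toU (cr (E i) d P t))⁻¹ * (pp E r a i)⁻¹, ?_, ?_⟩
    · refine (congrArg (· ∈ S) (_root_.funext fun j => ?_)).mp (h5 (cr_single h hc ht))
      rcases eq_or_ne j i with rfl | hj
      · simp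
      · simp [hj]
    · simp only [Units.coeHom_apply, Units.val_mul, pp_val, pp_inv, Pi.mul_apply]
      rw [← Ring.inverse_unit, toU_val (cr_unit h hc ht)]

/-- **The closure of a normal subgroup is open and contains the group `H`.** -/
theorem opn (N : Subgroup Γ) [hN : N.Normal] (h0 : ∃ n ∈ N, r n ≠ 1) :
    (∀ᶠ g in 𝓝 1, g ∈ St E (dt M) → g ∈ (N.map (pp E r)).topologicalClosure) ∧
      ∀ u ∈ H, Pi.mulSingle v u ∈ (N.map (pp E r)).topologicalClosure := by
  have hr : ∀ γ, pp E r γ ∈ (pp E r).range.topologicalClosure := fun γ =>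
    Subgroup.le_topologicalClosure _ ⟨γ, rfl⟩
  have ho := opn_of h N h0 (S := (N.map (pp E r)).topologicalClosure)
    ((Subgroup.topologicalClosure_mono (Subgroup.map_le_range _ _)).trans (closure_le_St E r h.stab))
    (fun a _ => closure_conj _ N (hr a)) fun a ha => .of_forall fun g hg => by
      have h4 := Subgroup.le_topologicalClosure _ (Subgroup.mem_map_of_mem (pp E r) ha)
      exact mul_mem (closure_conj _ N hg _ h4) (inv_mem h4)
  obtain ⟨A, -, x, Q, t, l, x1, x2, -, x3, x4⟩ := h.gen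
  refine ⟨ho, fun u hu => ?_⟩
  rw [x3] at hu
  refine (Subgroup.closure_le (((N.map (pp E r)).topologicalClosure).comap
    (MonoidHom.mulSingle (fun i => (Matrix n n (E i))ˣ) v))).2 ?_ hu
  intro u hu
  obtain ⟨a, u, rfl⟩ := Set.mem_iUnion.1 hu
  have z : x a 0 = 1 := left_eq_mul.1 ((congrArg (x a) (add_zero 0).symm).trans (x2 a 0 0))
  have cv : Continuous fun u => (x a u).1 := by
    simp only [x1]
    exact continuous_iff_continuousAt.2 fun u => (poly_deriv _ u).hasDerivAt.continuousAt
  have cx : Continuous (x a) := Units.continuous_iff.2 ⟨cv, (cv.comp continuous_neg).congr fun u =>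
    congrArg Units.val (eq_inv_of_mul_eq_one_left (by rw [← x2, neg_add_cancel, z]))⟩
  have c1 := (((continuous_mulSingle (A := fun i => (Matrix n n (E i))ˣ) v).comp cx).tendsto' 0 1
    (by simp [z])).comp (by
      simpa using (tendsto_pow_atTop_nhds_zero_of_norm_lt_one (x4 a).2.1).mul_const u)
  obtain ⟨j, hj⟩ := (c1.eventually ho).exists
  replace hj := hj fun i => by
    rcases eq_or_ne i v with rfl | e
    · simpa using h.hst _ (x3 ▸ Subgroup.subset_closure (Set.mem_iUnion.2 ⟨a, _, rfl⟩))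
    · simpa [e] using Dt.Stab.one
  change (Pi.mulSingle v (x a (l a ^ j * u)) : GG E n) ∈ _ at hj
  induction j with
  | zero => rwa [pow_zero, one_mul] at hj
  | succ j ih =>
    refine ih ?_
    rw [pow_succ', mul_assoc, ← (x4 a).2.2, ← conj_single] at hj
    simpa [mul_assoc] using closure_conj _ N (hr (t a)⁻¹) _ hj

end Vale.Agent.P011UN
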