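import Vale.Agent.P011UN.Lim
import Vale.Agent.P011UN.Fix
import Vale.Agent.P011.H210.Base

/-!
A division ring with its completion at a finite set of places.
-/

open MeasureTheory Filter Topology Set Matrix
open scoped CompactlySupported

namespace Vale.Agent.P011UN

open Vale.Agent.P011 Vale.Agent.P011.H210 Vale.Agent.P011.H83

/-- The data at a finite set of places. -/
structure Lo {D : Type} [DivisionRing D] {ι F : Type} [Fintype ι] [DecidableEq ι]
    [NontriviallyNormedField F] (f : D →+* Matrix ι ι F) (R G Γ T : Type) [Ring R]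
    [TopologicalSpace R] [Group G] [TopologicalSpace G] [Group Γ] where
  e : D →ₙ+* R
  u : G →* Rˣ
  d : Γ →* Dˣ
  i : Γ →* G
  π : R →+* Matrix ι ι F
  j : SpecialLinearGroup ι F →* G
  Λ : T → AddSubgroup D
  l : Filter T
  cen : ∀ x, e 1 * x = x * e 1
  dense : ∀ x, e 1 * x ∈ closure (range e)
  cu : Continuous fun g => (u g : R)
  cπ : Continuous π
  πe : ∀ x, π (e x) = f x
  cj : Continuous j
  nj : j.range.Normal
  J : ∀ (s s' : SpecialLinearGroup ι F) x, e 1 * x = x → s.1 * π x = π x * s'.1 →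
    u (j s) * x = x * u (j s')
  iu : ∀ γ, e 1 * u (i γ) = e (d γ)
  coc : Coc i
  ne : l.NeBot
  lf : ∀ t, LF e (Λ t)
  ev : ∀ x, ∀ᶠ t in l, x ∈ Λ t
  st : ∀ γ t, ∀ x ∈ Λ t, d γ * x ∈ Λ t ∧ x * d γ ∈ Λ t

/-- The pairs whose quotient is split regular. -/
def XS (ι F : Type) [Fintype ι] [DecidableEq ι] [Field F] : Set (Matrix ι ι F × Matrix ι ι F) :=
  {p | p.2.det ≠ 0 ∧ p.1 * p.2⁻¹ ∈ SR ι F}

variable {D : Type} [DivisionRing D] {ι F : Type} [Fintype ι] [DecidableEq ι]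
  [NontriviallyNormedField F] {f : D →+* Matrix ι ι F} {R G Γ T : Type} [Ring R]
  [TopologicalSpace R] [Group G] [TopologicalSpace G] [Group Γ]

theorem open_quot {U : Set (Matrix ι ι F)} (hU : IsOpen U) :
    IsOpen {p : Matrix ι ι F × Matrix ι ι F | p.2.det ≠ 0 ∧ p.1 * p.2⁻¹ ∈ U} := by
  have o : IsOpen {p : Matrix ι ι F × Matrix ι ι F | p.2.det ≠ 0} :=
    isOpen_ne_fun continuous_snd.matrix_det continuous_const
  refine ContinuousOn.isOpen_inter_preimage (f := fun p : Matrix ι ι F × Matrix ι ι F =>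
    p.1 * p.2⁻¹) (fun p hp => ContinuousAt.continuousWithinAt ?_) o hU
  refine continuousAt_fst.mul ((continuousAt_matrix_inv p.2 ?_).comp continuousAt_snd)
  rw [Ring.inverse_eq_inv']
  exact continuousAt_inv₀ hp

namespace Lo

variable (H : Lo f R G Γ T)

/-- The completion. -/
def V : AddSubgroup R where
  carrier := {x | H.e 1 * x = x}
  add_mem' := fun {a b} ha hb => by rw [mem_ofPred_eq, mul_add, ha, hb]
  zero_mem' := mul_zero _
  neg_mem' := fun {a} ha => by rw [mem_ofPred_eq, mul_neg, ha]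

theorem V_mul {x : R} (hx : x ∈ H.V) (a b : R) : a * x * b ∈ H.V := by
  change H.e 1 * _ = _
  rw [← mul_assoc, ← mul_assoc, H.cen, mul_assoc a, show H.e 1 * x = x from hx]

/-- The embedding. -/
def em : D →+ H.V where
  toFun x := ⟨H.e x, by change H.e 1 * _ = _; rw [← map_mul, one_mul]⟩
  map_zero' := Subtype.ext (map_zero _)
  map_add' a b := Subtype.ext (map_add _ _ _)

instance : DistribMulAction (G × G) H.V where
  smul g x := ⟨H.u g.1 * x * H.u g.2⁻¹, H.V_mul x.2 _ _⟩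
  one_smul x := Subtype.ext (by change H.u 1 * x.1 * H.u 1⁻¹ = _; simp)
  mul_smul a b x := Subtype.ext (by
    change H.u (a.1 * b.1) * x.1 * H.u (a.2 * b.2)⁻¹ =
      H.u a.1 * (H.u b.1 * x.1 * H.u b.2⁻¹) * H.u a.2⁻¹
    simp [mul_assoc])
  smul_zero a := Subtype.ext (by change H.u a.1 * (0 : R) * H.u a.2⁻¹ = 0; simp)
  smul_add a x y := Subtype.ext (by
    change H.u a.1 * (x.1 + y.1) * H.u a.2⁻¹ = H.u a.1 * x.1 * H.u a.2⁻¹ + H.u a.1 * y.1 * H.u a.2⁻¹
    rw [mul_add, add_mul])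

theorem smul_val (g : G × G) (x : H.V) : (g • x).1 = H.u g.1 * x * H.u g.2⁻¹ := rfl

theorem em_smul (γ δ : Γ) (x : D) :
    H.em (H.d γ * x * H.d δ⁻¹) = (H.i γ, H.i δ) • H.em x := Subtype.ext <| by
  change H.e _ = H.u (H.i γ) * H.e x * H.u (H.i δ)⁻¹
  rw [map_mul, map_mul, ← H.iu, ← H.iu, map_inv H.i, H.cen, mul_assoc (H.u (H.i γ) : R),
    ← map_mul, one_mul, ← mul_assoc, mul_assoc (H.u (H.i γ) : R), ← map_mul, mul_one]

/-- The action on pairs of elements. -/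
def act (γ : Γ × Γ) : D × D ≃ D × D where
  toFun w := (H.d γ.1 * w.1 * H.d γ.2⁻¹, H.d γ.1 * w.2 * H.d γ.2⁻¹)
  invFun w := (H.d γ.1⁻¹ * w.1 * H.d γ.2, H.d γ.1⁻¹ * w.2 * H.d γ.2)
  left_inv w := by simp [mul_assoc]
  right_inv w := by simp [mul_assoc]

/-- The lattices of pairs. -/
def Λ2 (t : T) : AddSubgroup (D × D) := (H.Λ t).prod (H.Λ t)

/-- The embedding of pairs. -/
def em2 : D × D →+ H.V × H.V := H.em.prodMap H.em

/-- The projection of pairs. -/
def pr (x : H.V × H.V) : Matrix ι ι F × Matrix ι ι F := (H.π x.1, H.π x.2)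

theorem pr_cont : Continuous H.pr :=
  (H.cπ.comp (continuous_subtype_val.comp continuous_fst)).prodMk
    (H.cπ.comp (continuous_subtype_val.comp continuous_snd))

theorem lf2 (t : T) : LF H.em2 (H.Λ2 t) := fun K hK =>
  ((H.lf t _ (hK.image (continuous_subtype_val.comp continuous_fst))).prod
    (H.lf t _ (hK.image (continuous_subtype_val.comp continuous_snd)))).subset
      fun _ m => ⟨⟨m.1.1, _, m.2, rfl⟩, ⟨m.1.2, _, m.2, rfl⟩⟩

theorem ev2 (w : D × D) : ∀ᶠ t in H.l, w ∈ H.Λ2 t := (H.ev w.1).and (H.ev w.2)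

theorem dense2 : DenseRange H.em2 := by
  have h : DenseRange H.em := fun x => by
    rw [IsInducing.subtypeVal.closure_eq_preimage_closure_image, ← range_comp]
    have := H.dense x
    rwa [show H.e 1 * x.1 = x.1 from x.2] at this
  exact h.prodMap h

theorem act_mem (γ : Γ × Γ) (t : T) (w : D × D) : w ∈ H.Λ2 t ↔ H.act γ w ∈ H.Λ2 t := by
  have k : ∀ (γ : Γ × Γ) w, w ∈ H.Λ2 t → H.act γ w ∈ H.Λ2 t := fun γ w m =>
    ⟨(H.st _ t _ (H.st _ t _ m.1).1).2, (H.st _ t _ (H.st _ t _ m.2).1).2⟩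
  refine ⟨k γ w, fun m => ?_⟩
  have := k γ⁻¹ _ m
  rwa [show H.act γ⁻¹ (H.act γ w) = w by simp [act, mul_assoc]] at this

theorem stab [Nonempty ι] {p : H.V × H.V} (hp : H.pr p ∈ XS ι F) :
    ∃ h : SpecialLinearGroup ι F, ∀ (Z : SpecialLinearGroup ι F) (z : ι → F),
      (Z : Matrix ι ι F) = diagonal z → ∃ w : G × G, w • p = p ∧ ∀ s,
        w * (MonoidHom.inl G G).comp H.j s * w⁻¹ =
          (MonoidHom.inl G G).comp H.j (h * Z * h⁻¹ * s * (h * Z * h⁻¹)⁻¹) := by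
  obtain ⟨h, a, -, e⟩ := exists_sl hp.2
  refine ⟨h, fun Z z hZ => ?_⟩
  have q : IsUnit (H.π p.2).det := (hp.1 : (H.π p.2).det ≠ 0).isUnit
  let Y : SpecialLinearGroup ι F := ⟨(H.π p.2)⁻¹ * (h * Z * h⁻¹).1 * H.π p.2, by
    rw [det_mul, det_mul, (h * Z * h⁻¹).2, mul_one, ← det_mul, nonsing_inv_mul _ q, det_one]⟩
  have a2 : (h * Z * h⁻¹).1 * H.π p.2 = H.π p.2 * Y.1 := by
    rw [← mul_assoc, ← mul_assoc, mul_nonsing_inv _ q, one_mul]
  have a1 : (h * Z * h⁻¹).1 * H.π p.1 = H.π p.1 * Y.1 := by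
    have c : (h * Z * h⁻¹).1 * (H.π p.1 * (H.π p.2)⁻¹) =
        H.π p.1 * (H.π p.2)⁻¹ * (h * Z * h⁻¹).1 := by
      change h.1 * Z.1 * h⁻¹.1 * ((H.pr p).1 * (H.pr p).2⁻¹) =
        (H.pr p).1 * (H.pr p).2⁻¹ * (h.1 * Z.1 * h⁻¹.1)
      rw [e, hZ]
      have k : ∀ x y : ι → F, h.1 * diagonal x * h⁻¹.1 * (h.1 * diagonal y * h⁻¹.1) =
          h.1 * diagonal (fun i => x i * y i) * h⁻¹.1 := fun x y => by
        rw [← diagonal_mul_diagonal]
        simp only [mul_assoc]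
        rw [← mul_assoc h⁻¹.1, sl_inv_mul, one_mul]
      rw [k, k]
      simp only [mul_comm]
    rw [← mul_assoc, ← mul_assoc, ← c, mul_assoc _ _ (H.π p.2), nonsing_inv_mul_cancel_right _ _ q]
  have b : ∀ x : H.V, (h * Z * h⁻¹).1 * H.π x = H.π x * Y.1 →
      (H.j (h * Z * h⁻¹), H.j Y) • x = x := fun x hx => Subtype.ext (by
    rw [smul_val, H.J _ _ _ x.2 hx, map_inv, Units.mul_inv_cancel_right])
  refine ⟨(H.j (h * Z * h⁻¹), H.j Y), Prod.ext (b _ a1) (b _ a2), fun s => ?_⟩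
  simp

variable [IsTopologicalRing R] [IsTopologicalGroup G]

instance : ContinuousSMul (G × G) H.V := ⟨continuous_induced_rng.2
  (((H.cu.comp (continuous_fst.comp continuous_fst)).mul
    (continuous_subtype_val.comp continuous_snd)).mul
      (H.cu.comp (continuous_snd.comp continuous_fst).inv))⟩

variable [T2Space R] [LocallyCompactSpace R]

instance : LocallyCompactSpace H.V :=
  (isClosed_eq (continuous_const.mul continuous_id) continuous_id).locallyCompactSpace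

variable [SecondCountableTopology R] [LocallyCompactSpace G] [T2Space G]
  [SecondCountableTopology G] [Nontrivial ι] [ProperSpace F]

instance : SecondCountableTopology H.V := inferInstanceAs (SecondCountableTopology (H.V : Set R))

/-- **The limit theorem for pairs.** -/
theorem lim {Q A : Type*} [Group Q] [Finite Q] [MulAction Q A] [Finite A] (c : Γ →* Q)
    (κ : D → A) (hκ : ∀ γ y, κ (H.d γ * y * H.d γ⁻¹) = c γ • κ y) {ρ : Q}
    (hρ : ∀ O ∈ 𝓝 (1 : G), ∃ γ : Γ, c γ = ρ ∧ ∃ o ∈ O, ∃ s, H.i γ = o * H.j s)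
    {φ0 : C_c(H.V × H.V, ℝ)} (h0 : ∀ x, 0 ≤ φ0 x) (h1 : ∃ x, φ0 x ≠ 0) (φ : C_c(H.V × H.V, ℝ))
    (hφ : ∀ x, H.pr x ∉ XS ι F → φ x = 0) (a : A) :
    Tendsto (fun t => (av H.em2 {w | w ∈ H.Λ2 t ∧ κ (w.1 * w.2⁻¹) = ρ • a} φ -
      av H.em2 {w | w ∈ H.Λ2 t ∧ κ (w.1 * w.2⁻¹) = a} φ) / av H.em2 (H.Λ2 t) φ0) H.l (𝓝 0) := by
  borelize (H.V × H.V) (G × G)
  refine lat_lim H.lf2 H.ev2 H.dense2 (c.comp (MonoidHom.fst Γ Γ)) H.act
    (fun γ => Homeomorph.smul (H.i.prodMap H.i γ))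
    (fun γ w => Prod.ext (H.em_smul _ _ _) (H.em_smul _ _ _)) H.act_mem
    (fun w => κ (w.1 * w.2⁻¹)) (fun γ w => ?_) (X0 := H.pr ⁻¹' XS ι F) ρ
    (fun ν _ ψ p1 p2 p3 a => ?_) h0 h1 φ hφ a
  · refine (congrArg κ ?_).trans (hκ γ.1 _)
    simp [act, mul_assoc]
  · refine act_sl H.coc.prod (c.comp (MonoidHom.fst Γ Γ)) ((MonoidHom.inl G G).comp H.j)
      (H.cj.prodMk continuous_const) ⟨?_⟩ (fun g => ?_)
      ((open_quot isOpen_SR).preimage H.pr_cont) (fun p hp => H.stab hp) (fun O hO => ?_) p1 p2 p3 a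
    · rintro _ ⟨s, rfl⟩ g
      obtain ⟨s', e⟩ := H.nj.conj_mem _ ⟨s, rfl⟩ g.1
      exact ⟨s', by simp [e, Prod.ext_iff]⟩
    · have := (DistribMulAction.toAddEquiv (H.V × H.V) g).isAddHaarMeasure_map ν
        (continuous_const_smul g) (continuous_const_smul g⁻¹)
      exact ⟨(continuous_const_smul g).measurable,
        Measure.absolutelyContinuous_isAddHaarMeasure
          (ν.map (DistribMulAction.toAddEquiv (H.V × H.V) g)) ν⟩
    · obtain ⟨γ, a1, o, a2, s, a3⟩ := hρ _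
        ((Continuous.prodMk_left (1 : G)).continuousAt.preimage_mem_nhds hO)
      exact ⟨(γ, 1), a1, (o, 1), a2, s, by simp [a3]⟩

end Lo

end Vale.Agent.P011UN
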